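import Vale.Agent.P050.H392.Part

/-!
The Bethe lower bound for partition functions with totally positive edge kernels.
-/

namespace Vale.Agent.P050.H392

open Finset Function

variable {V X : Type*} [Fintype V] [DecidableEq V] [LinearOrder X] [Fintype X]

theorem jensen_log {X : Type*} [Fintype X] {π : X → ℝ} (hπ : ∀ x, 0 ≤ π x) (hπ1 : ∑ x, π x = 1)
    {g : X → ℝ} (hg : ∀ x, 0 < g x) :
    ∑ x, π x * Real.log (g x) ≤ Real.log (∑ x, π x * g x) := by
  have := strictConcaveOn_log_Ioi.concaveOn.le_map_sum (t := univ) (w := π) (p := g)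
    (fun x _ => hπ x) hπ1 (fun x _ => hg x)
  simpa [smul_eq_mul] using this

/-- total weight -/
noncomputable def tot (W : X → X → ℝ) : ℝ := ∑ x, ∑ y, W x y

/-- row marginal -/
noncomputable def row (W : X → X → ℝ) (x : X) : ℝ := (∑ y, W x y) / tot W

/-- column marginal -/
noncomputable def col (W : X → X → ℝ) (y : X) : ℝ := (∑ x, W x y) / tot W

theorem gibbs {X : Type*} [Fintype X] {π : X → ℝ} (hπ : ∀ x, 0 < π x) (hπ1 : ∑ x, π x = 1)
    {w : X → ℝ} (hw : ∀ x, 0 < w x) :
    ∑ x, π x * (Real.log (w x) - Real.log (π x)) ≤ Real.log (∑ x, w x) := by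
  have h := jensen_log (fun x => (hπ x).le) hπ1 (g := fun x => w x / π x)
    (fun x => div_pos (hw x) (hπ x))
  have h1 : ∀ x, π x * (w x / π x) = w x := fun x => mul_div_cancel₀ _ (hπ x).ne'
  have h2 : ∀ x, Real.log (w x / π x) = Real.log (w x) - Real.log (π x) := fun x =>
    Real.log_div (hw x).ne' (hπ x).ne'
  simpa only [h1, h2] using h

section
variable {W : X → X → ℝ} [Nonempty X] (hpos : ∀ x y, 0 < W x y)
include hpos

theorem tot_pos : 0 < tot W :=
  Finset.sum_pos (fun x _ => Finset.sum_pos (fun y _ => hpos x y) univ_nonempty) univ_nonempty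

theorem row_pos (x : X) : 0 < row W x :=
  div_pos (Finset.sum_pos (fun y _ => hpos x y) univ_nonempty) (tot_pos hpos)

theorem col_pos (y : X) : 0 < col W y :=
  div_pos (Finset.sum_pos (fun x _ => hpos x y) univ_nonempty) (tot_pos hpos)

theorem row_sum : ∑ x, row W x = 1 := by
  unfold row
  rw [← Finset.sum_div]
  exact div_self (tot_pos hpos).ne'

theorem col_sum : ∑ y, col W y = 1 := by
  unfold col
  rw [← Finset.sum_div, Finset.sum_comm]
  exact div_self (tot_pos hpos).ne'

theorem jensen_step {g : X → ℝ} (hg : ∀ x, 0 < g x) :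
    Real.log (tot W) + ∑ x, row W x * Real.log (g x) + ∑ y, col W y * Real.log (col W y) ≤
      ∑ y, col W y * Real.log (∑ x, W x y * g x) := by
  have hS := tot_pos hpos
  have h1 : ∀ y, Real.log (tot W) + Real.log (col W y) +
      ∑ x, (W x y / (tot W * col W y)) * Real.log (g x) ≤ Real.log (∑ x, W x y * g x) := by
    intro y
    have hc := col_pos hpos y
    have hSc : 0 < tot W * col W y := mul_pos hS hc
    have hcs : tot W * col W y = ∑ x, W x y := by
      unfold col; field_simp
    have hq1 : ∑ x, W x y / (tot W * col W y) = 1 := by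
      rw [← Finset.sum_div, ← hcs]; exact div_self hSc.ne'
    have h2 := jensen_log (π := fun x => W x y / (tot W * col W y))
      (fun x => (div_pos (hpos x y) hSc).le) hq1 hg
    have h3 : ∑ x, W x y * g x = (tot W * col W y) * ∑ x, W x y / (tot W * col W y) * g x := by
      rw [Finset.mul_sum]
      refine Finset.sum_congr rfl fun x _ => ?_
      field_simp
    have h4 : 0 < ∑ x, W x y / (tot W * col W y) * g x :=
      Finset.sum_pos (fun x _ => mul_pos (div_pos (hpos x y) hSc) (hg x)) univ_nonempty
    rw [h3, Real.log_mul hSc.ne' h4.ne', Real.log_mul hS.ne' hc.ne']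
    linarith
  have h5 : ∑ y, col W y * (Real.log (tot W) + Real.log (col W y) +
      ∑ x, (W x y / (tot W * col W y)) * Real.log (g x)) ≤
      ∑ y, col W y * Real.log (∑ x, W x y * g x) :=
    Finset.sum_le_sum fun y _ => mul_le_mul_of_nonneg_left (h1 y) (col_pos hpos y).le
  refine le_trans (le_of_eq ?_) h5
  have h6 : ∀ y, col W y * (Real.log (tot W) + Real.log (col W y) +
      ∑ x, (W x y / (tot W * col W y)) * Real.log (g x)) =
      col W y * Real.log (tot W) + col W y * Real.log (col W y) +
        ∑ x, W x y / tot W * Real.log (g x) := by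
    intro y
    have hc := col_pos hpos y
    rw [mul_add, mul_add, Finset.mul_sum]
    congr 1
    refine Finset.sum_congr rfl fun x _ => ?_
    field_simp
  simp only [h6, Finset.sum_add_distrib]
  rw [← Finset.sum_mul, col_sum hpos, one_mul]
  have h7 : ∑ y, ∑ x, W x y / tot W * Real.log (g x) = ∑ x, row W x * Real.log (g x) := by
    rw [Finset.sum_comm]
    refine Finset.sum_congr rfl fun x _ => ?_
    rw [← Finset.sum_mul, ← Finset.sum_div]
    rfl
  rw [h7]; ring

end

theorem K_pos {W : X → X → ℝ} (hpos : ∀ x y, 0 < W x y) (E : Finset (V × V)) {w : V → X → ℝ}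
    (hw : ∀ v x, 0 < w v x) {u v : V} (huv : u ≠ v) (x y : X) : 0 < K W E w u v x y := by
  unfold K Z
  refine Finset.sum_pos' (fun σ _ => mul_nonneg (Finset.prod_nonneg fun a _ =>
    pin_nonneg (fun v x => (hw v x).le) u v x y a _)
    (Finset.prod_nonneg fun _ _ => (hpos _ _).le))
    ⟨update (update (fun _ => x) u x) v y, Finset.mem_univ _, ?_⟩
  refine mul_pos (Finset.prod_pos fun a _ => ?_) (Finset.prod_pos fun _ _ => hpos _ _)
  unfold pin
  by_cases ha : a = v
  · subst ha; simp
  · simp only [update_of_ne ha]
    by_cases ha' : a = u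
    · subst ha'; simp
    · simp only [update_of_ne ha']; exact hw a x

/-- **Bethe lower bound.** -/
theorem bethe {W : X → X → ℝ} [Nonempty X] (hTP : TP W) (hpos : ∀ x y, 0 < W x y)
    {π : V → X → ℝ} (hπ : ∀ v x, 0 < π v x) (hπ1 : ∀ v, ∑ x, π v x = 1)
    (E : Finset (V × V))
    (hE : ∀ e ∈ E, e.1 ≠ e.2 ∧ π e.1 = row W ∧ π e.2 = col W)
    (w : V → X → ℝ) (hw : ∀ v x, 0 < w v x) :
    (E.card : ℝ) * (Real.log (tot W) + ∑ x, row W x * Real.log (row W x) +
        ∑ y, col W y * Real.log (col W y)) +
      ∑ v, ∑ x, π v x * (Real.log (w v x) - Real.log (π v x)) ≤ Real.log (Z W E w) := by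
  induction E using Finset.induction_on generalizing w with
  | empty =>
    have h1 : Z W ∅ w = ∏ v, ∑ x, w v x := by
      unfold Z
      simp only [Finset.prod_empty, mul_one]
      rw [Finset.prod_univ_sum, Fintype.piFinset_univ]
    rw [h1, Real.log_prod (fun v _ => (Finset.sum_pos (fun x _ => hw v x) univ_nonempty).ne')]
    simp only [Finset.card_empty, Nat.cast_zero, zero_mul, zero_add]
    exact Finset.sum_le_sum fun v _ => gibbs (hπ v) (hπ1 v) (hw v)
  | insert e E he ih =>
    obtain ⟨u, v⟩ := e
    obtain ⟨huv, hu, hv⟩ := hE (u, v) (Finset.mem_insert_self _ _)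
    simp only at huv hu hv
    have ih' := ih (fun e he => hE e (Finset.mem_insert_of_mem he))
    have hK := K_pos hpos E hw huv
    have hKTP : TP (K W E w u v) := K_tp hTP (fun x y => (hpos x y).le) E
      (fun v x => (hw v x).le) u v
    set κ : ℝ := Real.log (tot W) + ∑ x, row W x * Real.log (row W x) +
        ∑ y, col W y * Real.log (col W y) with hκ
    set f : V → ℝ := fun a => ∑ x, π a x * (Real.log (w a x) - Real.log (π a x)) with hf
    -- the transfer kernel
    set A : X → X → ℝ := fun x y => w u x * K W E w u v x y * w v y with hA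
    have hApos : ∀ x y, 0 < A x y := fun x y => mul_pos (mul_pos (hw _ _) (hK _ _)) (hw _ _)
    have hATP : TP A := by
      intro x x' y y' hx hy
      have h := hKTP x x' y y' hx hy
      have hc : 0 ≤ w u x * w u x' * (w v y * w v y') :=
        (mul_pos (mul_pos (hw _ _) (hw _ _)) (mul_pos (hw _ _) (hw _ _))).le
      have := mul_le_mul_of_nonneg_left h hc
      simp only [hA]
      nlinarith [this]
    set B : X → X → ℝ := fun y x => W x y with hB
    have hBTP : TP B := by
      intro x x' y y' hx hy
      have h := hTP y y' x x' hy hx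
      simp only [hB]
      linarith [mul_comm (W y' x) (W y x')]
    set M : X → X → ℝ := fun x z => ∑ y, A x y * B y z with hM
    have hMTP : TP M := hATP.comp hBTP (fun x y => (hApos x y).le) (fun x y => (hpos y x).le)
    have hMpos : ∀ x z, 0 < M x z := fun x z =>
      Finset.sum_pos (fun y _ => mul_pos (hApos x y) (hpos z y)) univ_nonempty
    have htr : Z W (insert (u, v) E) w = ∑ x, M x x := by
      rw [Z_insert huv he]
      refine Finset.sum_congr rfl fun x _ => Finset.sum_congr rfl fun y _ => ?_
      simp only [hA, hB]; ring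
    rw [htr, Finset.card_insert_of_notMem he]
    refine le_log_trace hMTP hMpos (fun x => (hπ u x).le) (hπ1 u) ?_
    intro g hg
    set h : X → ℝ := fun y => ∑ x, W x y * g x with hh
    have hhpos : ∀ y, 0 < h y := fun y =>
      Finset.sum_pos (fun x _ => mul_pos (hpos x y) (hg x)) univ_nonempty
    set R : X → ℝ := fun x => ∑ y, K W E w u v x y * (w v y * h y) with hR
    have hRpos : ∀ x, 0 < R x := fun x =>
      Finset.sum_pos (fun y _ => mul_pos (hK x y) (mul_pos (hw v y) (hhpos y))) univ_nonempty
    have hMg : ∀ x, ∑ z, M x z * g z = w u x * R x := by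
      intro x
      simp only [hM, hR, hh, hA, hB, Finset.sum_mul, Finset.mul_sum]
      rw [Finset.sum_comm]
      refine Finset.sum_congr rfl fun y _ => Finset.sum_congr rfl fun z _ => by ring
    simp only [hMg]
    -- apply the induction hypothesis with new weights
    have h0 := ih' (update (update w u (fun x => π u x / R x)) v (fun y => w v y * h y)) (by
      intro a x
      by_cases ha : a = v
      · subst ha; simp only [update_self]; exact mul_pos (hw _ _) (hhpos _)
      · rw [update_of_ne ha]
        by_cases ha' : a = u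
        · subst ha'; simp only [update_self]; exact div_pos (hπ _ _) (hRpos _)
        · rw [update_of_ne ha']; exact hw a x)
    have hZ : Z W E (update (update w u (fun x => π u x / R x)) v (fun y => w v y * h y)) = 1 := by
      rw [Z_update huv, ← hπ1 u]
      refine Finset.sum_congr rfl fun x _ => ?_
      have : ∑ y, π u x / R x * (w v y * h y) * K W E w u v x y = π u x / R x * R x := by
        simp only [hR, Finset.mul_sum]
        refine Finset.sum_congr rfl fun y _ => by ring
      rw [this]
      exact div_mul_cancel₀ _ (hRpos x).ne'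
    rw [hZ, Real.log_one] at h0
    have hsum : ∑ a, ∑ x, π a x * (Real.log ((update (update w u (fun x => π u x / R x)) v
          (fun y => w v y * h y)) a x) - Real.log (π a x)) =
        ∑ a, f a - f u - ∑ x, π u x * Real.log (R x) + ∑ y, π v y * Real.log (h y) := by
      have hs : ∀ F : V → ℝ, ∑ a, F a = F u + (F v + ∑ a ∈ (univ.erase u).erase v, F a) := by
        intro F
        rw [← Finset.add_sum_erase univ F (Finset.mem_univ u),
          ← Finset.add_sum_erase (univ.erase u) F
            (Finset.mem_erase.2 ⟨huv.symm, Finset.mem_univ v⟩)]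
      rw [hs, hs f]
      have e1 : ∑ x, π u x * (Real.log ((update (update w u (fun x => π u x / R x)) v
          (fun y => w v y * h y)) u x) - Real.log (π u x)) =
          - ∑ x, π u x * Real.log (R x) := by
        rw [← Finset.sum_neg_distrib]
        refine Finset.sum_congr rfl fun x _ => ?_
        rw [update_of_ne huv, update_self, Real.log_div (hπ u x).ne' (hRpos x).ne']
        ring
      have e2 : ∑ x, π v x * (Real.log ((update (update w u (fun x => π u x / R x)) v
          (fun y => w v y * h y)) v x) - Real.log (π v x)) =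
          f v + ∑ y, π v y * Real.log (h y) := by
        simp only [hf, update_self]
        rw [← Finset.sum_add_distrib]
        refine Finset.sum_congr rfl fun x _ => ?_
        rw [Real.log_mul (hw v x).ne' (hhpos x).ne']
        ring
      have e3 : ∑ a ∈ (univ.erase u).erase v, ∑ x, π a x * (Real.log ((update (update w u
          (fun x => π u x / R x)) v (fun y => w v y * h y)) a x) - Real.log (π a x)) =
          ∑ a ∈ (univ.erase u).erase v, f a := by
        refine Finset.sum_congr rfl fun a ha => ?_
        have ha1 : a ≠ v := (Finset.mem_erase.1 ha).1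
        have ha2 : a ≠ u := (Finset.mem_erase.1 (Finset.mem_erase.1 ha).2).1
        simp only [hf, update_of_ne ha1, update_of_ne ha2]
      rw [e1, e2, e3]; ring
    rw [hsum] at h0
    have hJ := jensen_step hpos hg
    have hw1 : ∑ x, π u x * Real.log (w u x * R x) =
        ∑ x, π u x * Real.log (w u x) + ∑ x, π u x * Real.log (R x) := by
      rw [← Finset.sum_add_distrib]
      refine Finset.sum_congr rfl fun x _ => ?_
      rw [Real.log_mul (hw u x).ne' (hRpos x).ne']; ring
    have hfu : f u = ∑ x, π u x * Real.log (w u x) - ∑ x, π u x * Real.log (π u x) := by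
      simp only [hf]
      rw [← Finset.sum_sub_distrib]
      exact Finset.sum_congr rfl fun x _ => by ring
    rw [hw1]
    have hhv : ∑ y, π v y * Real.log (h y) = ∑ y, col W y * Real.log (∑ x, W x y * g x) := by
      rw [hv]
    have hug : ∑ x, π u x * Real.log (g x) = ∑ x, row W x * Real.log (g x) := by rw [hu]
    have huu : ∑ x, π u x * Real.log (π u x) = ∑ x, row W x * Real.log (row W x) := by rw [hu]
    push_cast
    have hexp : ((E.card : ℝ) + 1) * κ = E.card * κ + κ := by ring
    rw [hexp]
    linarith

end Vale.Agent.P050.H392
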