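import Mathlib

/-!
If every finite sample of a bounded nonnegative kernel satisfies the Sidorenko inequality for a
graph, so does the kernel.
-/

namespace Vale.Agent.P050.H392

open Finset Function MeasureTheory

variable {V : Type*} [Fintype V] [DecidableEq V] {Ω : Type*} [MeasurableSpace Ω]
  (μ : Measure Ω) [IsProbabilityMeasure μ]

theorem measurePreserving_comp_inj {N : ℕ} {φ : V → Fin N} (hφ : Injective φ) :
    MeasurePreserving (fun (z : Fin N → Ω) (v : V) => z (φ v))
      (Measure.pi fun _ : Fin N => μ) (Measure.pi fun _ : V => μ) := by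
  have hm : Measurable (fun (z : Fin N → Ω) (v : V) => z (φ v)) :=
    measurable_pi_lambda _ fun v => measurable_pi_apply (φ v)
  refine ⟨hm, ?_⟩
  symm
  refine Measure.pi_eq fun s hs => ?_
  rw [Measure.map_apply hm (MeasurableSet.univ_pi hs)]
  classical
  set t : Fin N → Set Ω := fun i => if h : ∃ v, φ v = i then s h.choose else Set.univ with ht
  have ht' : ∀ v, t (φ v) = s v := by
    intro v
    have h : ∃ v', φ v' = φ v := ⟨v, rfl⟩
    simp only [ht]
    rw [dif_pos h]
    rw [hφ h.choose_spec]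
  have hpre : (fun (z : Fin N → Ω) (v : V) => z (φ v)) ⁻¹' Set.univ.pi s = Set.univ.pi t := by
    ext z
    simp only [Set.mem_preimage, Set.mem_pi, Set.mem_univ, true_implies]
    constructor
    · intro h i
      by_cases hi : ∃ v, φ v = i
      · obtain ⟨v, rfl⟩ := hi
        rw [ht']; exact h v
      · simp only [ht]; rw [dif_neg hi]; trivial
    · intro h v
      rw [← ht']; exact h _
  rw [hpre, Measure.pi_pi]
  have h1 : ∏ i, μ (t i) = ∏ i ∈ univ.image φ, μ (t i) := by
    symm
    refine Finset.prod_subset (Finset.subset_univ _) fun i _ hi => ?_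
    have hi' : ¬ ∃ v, φ v = i := by simpa using hi
    simp only [ht]; rw [dif_neg hi', measure_univ]
  rw [h1, Finset.prod_image (fun a _ b _ h => hφ h)]
  exact Finset.prod_congr rfl fun v _ => by rw [ht']

/-- homomorphism density of the graph with (oriented) edge set `E` in a kernel -/
noncomputable def dens (E : Finset (V × V)) (W : Ω → Ω → ℝ) : ℝ :=
  ∫ x : V → Ω, ∏ e ∈ E, W (x e.1) (x e.2) ∂(Measure.pi fun _ : V => μ)

variable {W : Ω → Ω → ℝ} {C : ℝ}

theorem measurable_pair (hW : Measurable (uncurry W)) {Θ : Type*} [MeasurableSpace Θ]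
    {f g : Θ → Ω} (hf : Measurable f) (hg : Measurable g) : Measurable fun x => W (f x) (g x) :=
  hW.comp (hf.prodMk hg)

theorem measurable_prod_edges (hW : Measurable (uncurry W)) {ι : Type*} (E : Finset ι)
    {Θ : Type*} [MeasurableSpace Θ] (f g : ι → Θ → Ω) (hf : ∀ i, Measurable (f i))
    (hg : ∀ i, Measurable (g i)) :
    Measurable fun x : Θ => ∏ e ∈ E, W (f e x) (g e x) := by
  refine Finset.measurable_prod _ fun e _ => ?_
  exact hW.comp ((hf e).prodMk (hg e))

theorem prod_bounds (hW0 : ∀ x y, 0 ≤ W x y) (hWC : ∀ x y, W x y ≤ C) {ι : Type*} (E : Finset ι)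
    (f g : ι → Ω) : 0 ≤ ∏ e ∈ E, W (f e) (g e) ∧ ∏ e ∈ E, W (f e) (g e) ≤ C ^ E.card := by
  refine ⟨Finset.prod_nonneg fun _ _ => hW0 _ _, ?_⟩
  exact (Finset.prod_le_prod (fun _ _ => hW0 _ _) fun _ _ => hWC _ _).trans
    (by rw [Finset.prod_const])

theorem integrable_of_bounds {Θ : Type*} [MeasurableSpace Θ] {ν : Measure Θ} [IsFiniteMeasure ν]
    {f : Θ → ℝ} (hf : Measurable f) {c : ℝ} (h : ∀ x, 0 ≤ f x ∧ f x ≤ c) : Integrable f ν :=
  Integrable.of_bound hf.aestronglyMeasurable c
    (Filter.Eventually.of_forall fun x => by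
      rw [Real.norm_eq_abs, abs_of_nonneg (h x).1]; exact (h x).2)

theorem dens_pair (hW : Measurable (uncurry W)) (hW0 : ∀ x y, 0 ≤ W x y)
    (hWC : ∀ x y, W x y ≤ C) {N : ℕ} {i j : Fin N} (hij : i ≠ j) :
    ∫ z : Fin N → Ω, W (z i) (z j) ∂(Measure.pi fun _ => μ) = ∫ x, ∫ y, W x y ∂μ ∂μ := by
  have hinj : Injective ![i, j] := by
    intro a b hab
    fin_cases a <;> fin_cases b <;> simp_all
  have h1 := (measurePreserving_comp_inj μ hinj)
  have hmeas : Measurable fun x : Fin 2 → Ω => W (x 0) (x 1) :=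
    measurable_pair hW (measurable_pi_apply 0) (measurable_pi_apply 1)
  have h2 : ∫ z : Fin N → Ω, W (z i) (z j) ∂(Measure.pi fun _ => μ) =
      ∫ x : Fin 2 → Ω, W (x 0) (x 1) ∂(Measure.pi fun _ => μ) := by
    rw [← h1.map_eq, integral_map h1.measurable.aemeasurable hmeas.aestronglyMeasurable]
    rfl
  rw [h2]
  have h3 := (measurePreserving_finTwoArrow μ)
  have h4 : ∫ x : Fin 2 → Ω, W (x 0) (x 1) ∂(Measure.pi fun _ => μ) =
      ∫ p : Ω × Ω, W p.1 p.2 ∂(μ.prod μ) := by
    have hm2 : Measurable fun p : Ω × Ω => W p.1 p.2 := hW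
    rw [← h3.map_eq, integral_map h3.measurable.aemeasurable hm2.aestronglyMeasurable]
    rfl
  rw [h4, integral_prod]
  exact integrable_of_bounds hW fun p => ⟨hW0 _ _, hWC _ _⟩

theorem dens_of_samples (hW : Measurable (uncurry W)) (hW0 : ∀ x y, 0 ≤ W x y)
    (hWC : ∀ x y, W x y ≤ C) (E : Finset (V × V))
    (hs : ∀ N : ℕ, 0 < N → ∀ z : Fin N → Ω,
      ((∑ i, ∑ j, W (z i) (z j)) / (N : ℝ) ^ 2) ^ E.card ≤
      (∑ φ : V → Fin N, ∏ e ∈ E, W (z (φ e.1)) (z (φ e.2))) / (N : ℝ) ^ Fintype.card V) :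
    (∫ x, ∫ y, W x y ∂μ ∂μ) ^ E.card ≤ dens μ E W := by
  classical
  set p : ℝ := ∫ x, ∫ y, W x y ∂μ ∂μ with hp
  set T : ℝ := dens μ E W with hT
  set n : ℕ := Fintype.card V with hn
  set m : ℕ := E.card with hm
  have hp0 : 0 ≤ p := integral_nonneg fun x => integral_nonneg fun y => hW0 x y
  have hT0 : 0 ≤ T := integral_nonneg fun x => (prod_bounds hW0 hWC E _ _).1
  have hC0 : 0 ≤ C := by
    obtain ⟨x⟩ : Nonempty Ω := nonempty_of_isProbabilityMeasure μ
    exact (hW0 x x).trans (hWC x x)
  -- the inequality for each sample size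
  have key : ∀ N : ℕ, 0 < N → (((N : ℝ) - 1) / N * p) ^ m ≤
      T + (1 - (N.descFactorial n : ℝ) / (N : ℝ) ^ n) * C ^ m := by
    intro N hN
    have hNr : (0 : ℝ) < N := by exact_mod_cast hN
    set Q : Measure (Fin N → Ω) := Measure.pi fun _ => μ with hQ
    have hW2 : ∀ i j : Fin N, Measurable fun z : Fin N → Ω => W (z i) (z j) := fun i j =>
      measurable_pair hW (measurable_pi_apply i) (measurable_pi_apply j)
    have hI2 : ∀ i j : Fin N, Integrable (fun z : Fin N → Ω => W (z i) (z j)) Q := fun i j =>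
      integrable_of_bounds (hW2 i j) fun z => ⟨hW0 _ _, hWC _ _⟩
    set S : (Fin N → Ω) → ℝ := fun z => (∑ i, ∑ j, W (z i) (z j)) / (N : ℝ) ^ 2 with hS
    have hSmeas : Measurable S := (Finset.measurable_sum _ fun i _ =>
      Finset.measurable_sum _ fun j _ => hW2 i j).div_const _
    have hSb : ∀ z, 0 ≤ S z ∧ S z ≤ C := by
      intro z
      refine ⟨div_nonneg (Finset.sum_nonneg fun _ _ => Finset.sum_nonneg fun _ _ => hW0 _ _)
        (by positivity), ?_⟩
      simp only [hS]
      rw [div_le_iff₀ (by positivity)]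
      calc ∑ i, ∑ j, W (z i) (z j) ≤ ∑ _i : Fin N, ∑ _j : Fin N, C :=
            Finset.sum_le_sum fun _ _ => Finset.sum_le_sum fun _ _ => hWC _ _
        _ = C * (N : ℝ) ^ 2 := by simp; ring
    -- lower bound of the mean of the sample density
    have hSint : ((N : ℝ) - 1) / N * p ≤ ∫ z, S z ∂Q := by
      have h1 : ∫ z, S z ∂Q = (∑ i, ∑ j, ∫ z, W (z i) (z j) ∂Q) / (N : ℝ) ^ 2 := by
        simp only [hS]
        rw [integral_div, integral_finsetSum _ fun i _ => integrable_finsetSum _ fun j _ =>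
          hI2 i j]
        congr 1
        exact Finset.sum_congr rfl fun i _ => integral_finsetSum _ fun j _ => hI2 i j
      have h2 : ∀ i j : Fin N, (if i = j then 0 else p) ≤ ∫ z, W (z i) (z j) ∂Q := by
        intro i j
        split_ifs with h
        · exact integral_nonneg fun z => hW0 _ _
        · exact (dens_pair μ hW hW0 hWC h).ge
      have h3 : ∑ i : Fin N, ∑ j : Fin N, (if i = j then 0 else p) = N * (N - 1) * p := by
        have h4 : ∀ i : Fin N, ∑ j : Fin N, (if i = j then 0 else p) = (N - 1) * p := by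
          intro i
          have : ∀ j : Fin N, (if i = j then 0 else p) = p - (if i = j then p else 0) := by
            intro j; split_ifs <;> simp
          simp only [this, Finset.sum_sub_distrib]
          simp
          ring
        simp only [h4]
        simp
        ring
      rw [h1, le_div_iff₀ (by positivity)]
      calc ((N : ℝ) - 1) / N * p * (N : ℝ) ^ 2 = N * (N - 1) * p := by field_simp
        _ = ∑ i : Fin N, ∑ j : Fin N, (if i = j then 0 else p) := h3.symm
        _ ≤ _ := Finset.sum_le_sum fun i _ => Finset.sum_le_sum fun j _ => h2 i j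
    have hN1 : 0 ≤ ((N : ℝ) - 1) / N * p := by
      have : (1 : ℝ) ≤ N := by exact_mod_cast hN
      exact mul_nonneg (div_nonneg (by linarith) hNr.le) hp0
    -- Jensen
    have hJ : (∫ z, S z ∂Q) ^ m ≤ ∫ z, S z ^ m ∂Q := by
      have hI : Integrable S Q := integrable_of_bounds hSmeas hSb
      have hIm : Integrable (fun z => S z ^ m) Q :=
        integrable_of_bounds (hSmeas.pow_const m) (c := C ^ m) fun z =>
          ⟨pow_nonneg (hSb z).1 _, pow_le_pow_left₀ (hSb z).1 (hSb z).2 _⟩
      exact (convexOn_pow m).map_integral_le (continuous_pow m).continuousOn isClosed_Ici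
        (Filter.Eventually.of_forall fun z => (hSb z).1) hI hIm
    -- upper bound
    have hφmeas : ∀ φ : V → Fin N, Measurable fun z : Fin N → Ω =>
        ∏ e ∈ E, W (z (φ e.1)) (z (φ e.2)) := fun φ =>
      Finset.measurable_prod _ fun e _ => hW2 _ _
    have hφint : ∀ φ : V → Fin N, Integrable (fun z : Fin N → Ω =>
        ∏ e ∈ E, W (z (φ e.1)) (z (φ e.2))) Q := fun φ =>
      integrable_of_bounds (hφmeas φ) (c := C ^ m) fun z => prod_bounds hW0 hWC E _ _
    have hup : ∫ z, S z ^ m ∂Q ≤
        ∫ z, (∑ φ : V → Fin N, ∏ e ∈ E, W (z (φ e.1)) (z (φ e.2))) / (N : ℝ) ^ n ∂Q := by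
      refine integral_mono (integrable_of_bounds (hSmeas.pow_const m) (c := C ^ m) fun z =>
        ⟨pow_nonneg (hSb z).1 _, pow_le_pow_left₀ (hSb z).1 (hSb z).2 _⟩)
        ((integrable_finsetSum _ fun φ _ => hφint φ).div_const _) fun z => hs N hN z
    have hsplit : ∫ z, (∑ φ : V → Fin N, ∏ e ∈ E, W (z (φ e.1)) (z (φ e.2))) / (N : ℝ) ^ n ∂Q =
        (∑ φ : V → Fin N, ∫ z, ∏ e ∈ E, W (z (φ e.1)) (z (φ e.2)) ∂Q) / (N : ℝ) ^ n := by
      rw [integral_div, integral_finsetSum _ fun φ _ => hφint φ]
    have hφ : ∀ φ : V → Fin N, ∫ z, ∏ e ∈ E, W (z (φ e.1)) (z (φ e.2)) ∂Q ≤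
        (if Injective φ then T else C ^ m) := by
      intro φ
      split_ifs with h
      · have h1 := measurePreserving_comp_inj μ h
        have h2 : T = ∫ z : Fin N → Ω, ∏ e ∈ E, W (z (φ e.1)) (z (φ e.2)) ∂Q := by
          rw [hT]; unfold dens
          rw [← h1.map_eq, integral_map h1.measurable.aemeasurable]
          exact (measurable_prod_edges hW E (fun (e : V × V) (x : V → Ω) => x e.1)
            (fun (e : V × V) (x : V → Ω) => x e.2)
            (fun e => measurable_pi_apply _) (fun e => measurable_pi_apply _)).aestronglyMeasurable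
        exact h2.ge
      · calc ∫ z, ∏ e ∈ E, W (z (φ e.1)) (z (φ e.2)) ∂Q ≤ ∫ _z : Fin N → Ω, C ^ m ∂Q :=
              integral_mono (hφint φ) (integrable_const _) fun z => (prod_bounds hW0 hWC E _ _).2
          _ = C ^ m := by simp
    have hcard : (Finset.univ.filter fun φ : V → Fin N => Injective φ).card =
        N.descFactorial n := by
      have h1 : (Finset.univ.filter fun φ : V → Fin N => Injective φ).card =
          Fintype.card (V ↪ Fin N) := by
        rw [← Fintype.card_subtype]
        exact Fintype.card_congr (Equiv.subtypeInjectiveEquivEmbedding V (Fin N))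
      rw [h1, Fintype.card_embedding_eq, Fintype.card_fin]
    have hbound : ∑ φ : V → Fin N, (if Injective φ then T else C ^ m) ≤
        (N : ℝ) ^ n * T + ((N : ℝ) ^ n - N.descFactorial n) * C ^ m := by
      rw [Finset.sum_ite, Finset.sum_const, Finset.sum_const, hcard, nsmul_eq_mul, nsmul_eq_mul]
      have h2 : ((Finset.univ.filter fun φ : V → Fin N => ¬ Injective φ).card : ℝ) =
          (N : ℝ) ^ n - N.descFactorial n := by
        have h3 := Finset.card_filter_add_card_filter_not (s := (Finset.univ : Finset (V → Fin N)))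
          (fun φ : V → Fin N => Injective φ)
        rw [hcard, Finset.card_univ, Fintype.card_fun, Fintype.card_fin] at h3
        have h4 : (N.descFactorial n : ℝ) +
            ((Finset.univ.filter fun φ : V → Fin N => ¬ Injective φ).card : ℝ) = (N : ℝ) ^ n := by
          exact_mod_cast h3
        linarith
      rw [h2]
      have h5 : (N.descFactorial n : ℝ) ≤ (N : ℝ) ^ n := by
        exact_mod_cast Nat.descFactorial_le_pow N n
      nlinarith
    calc (((N : ℝ) - 1) / N * p) ^ m ≤ (∫ z, S z ∂Q) ^ m := pow_le_pow_left₀ hN1 hSint m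
      _ ≤ ∫ z, S z ^ m ∂Q := hJ
      _ ≤ _ := hup
      _ = _ := hsplit
      _ ≤ (∑ φ : V → Fin N, (if Injective φ then T else C ^ m)) / (N : ℝ) ^ n := by
          gcongr with φ _
          exact hφ φ
      _ ≤ ((N : ℝ) ^ n * T + ((N : ℝ) ^ n - N.descFactorial n) * C ^ m) / (N : ℝ) ^ n := by
          gcongr
      _ = _ := by field_simp
  -- limits
  have hl1 : Filter.Tendsto (fun N : ℕ => (((N : ℝ) - 1) / N * p) ^ m) Filter.atTop
      (nhds ((1 * p) ^ m)) := by
    refine Filter.Tendsto.pow (Filter.Tendsto.mul_const _ ?_) m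
    have h1 : Filter.Tendsto (fun N : ℕ => 1 - 1 / (N : ℝ)) Filter.atTop (nhds (1 - 0)) :=
      tendsto_const_nhds.sub tendsto_one_div_atTop_nhds_zero_nat
    rw [sub_zero] at h1
    refine h1.congr' ?_
    filter_upwards [Filter.eventually_gt_atTop 0] with N hN
    have : (N : ℝ) ≠ 0 := by exact_mod_cast hN.ne'
    field_simp
  have hl2 : Filter.Tendsto (fun N : ℕ => (N.descFactorial n : ℝ) / (N : ℝ) ^ n) Filter.atTop
      (nhds 1) := by
    have h1 : ∀ k : ℕ, Filter.Tendsto (fun N : ℕ => (N.descFactorial k : ℝ) / (N : ℝ) ^ k)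
        Filter.atTop (nhds 1) := by
      intro k
      induction k with
      | zero => simp
      | succ k ih =>
        have h2 : Filter.Tendsto (fun N : ℕ => 1 - (k : ℝ) * (1 / (N : ℝ))) Filter.atTop
            (nhds (1 - k * 0)) :=
          tendsto_const_nhds.sub (tendsto_one_div_atTop_nhds_zero_nat.const_mul _)
        have h3 := h2.mul ih
        simp only [mul_zero, sub_zero, mul_one] at h3
        refine h3.congr' ?_
        filter_upwards [Filter.eventually_gt_atTop k] with N hN
        have hN0 : (N : ℝ) ≠ 0 := by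
          have : 0 < N := lt_of_le_of_lt (Nat.zero_le k) hN
          exact_mod_cast this.ne'
        rw [Nat.descFactorial_succ, Nat.cast_mul, Nat.cast_sub hN.le, pow_succ]
        field_simp
    exact h1 n
  have hl3 : Filter.Tendsto (fun N : ℕ => T + (1 - (N.descFactorial n : ℝ) / (N : ℝ) ^ n) * C ^ m)
      Filter.atTop (nhds (T + (1 - 1) * C ^ m)) :=
    tendsto_const_nhds.add ((tendsto_const_nhds.sub hl2).mul_const _)
  have hfin := le_of_tendsto_of_tendsto hl1 hl3 (by
    filter_upwards [Filter.eventually_gt_atTop 0] with N hN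
    exact key N hN)
  simpa using hfin

end Vale.Agent.P050.H392
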