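import Vale.Agent.P050.H392.RankTwo
import Vale.Agent.P050.H392.Sample

/-!
Kernels on probability spaces: simple graphs, two-sided form, finite targets.
-/

namespace Vale.Agent.P050.H392

open Finset Function MeasureTheory

section general

variable {V : Type*} [Fintype V] [DecidableEq V] {Ω : Type*} [MeasurableSpace Ω]

theorem kernel_ineq (μ : Measure Ω) [IsProbabilityMeasure μ] {W : Ω → Ω → ℝ} {C : ℝ}
    (hW : Measurable (uncurry W)) (hW0 : ∀ x y, 0 ≤ W x y) (hWC : ∀ x y, W x y ≤ C)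
    {r s : Ω → ℝ} (hm : OrderedMinors W r s) (E : Finset (V × V)) (hE : ∀ e ∈ E, e.1 ≠ e.2)
    (h : Oriented E ∨ (r = s ∧ ∀ x y, W x y = W y x)) :
    (∫ x, ∫ y, W x y ∂μ ∂μ) ^ E.card ≤ dens μ E W :=
  dens_of_samples μ hW hW0 hWC E fun _ hN z => sample_ineq hW0 hm E hE h hN z

end general

section orientation

variable {V : Type*} [Fintype V] [DecidableEq V]

/-- the orientation of the edges of `H` along the level function `o` -/
def orient (H : SimpleGraph V) [DecidableRel H.Adj] (o : V → ℕ) : Finset (V × V) :=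
  Finset.univ.filter fun p => H.Adj p.1 p.2 ∧ o p.1 < o p.2

variable (H : SimpleGraph V) [DecidableRel H.Adj] {o : V → ℕ}

theorem orient_injOn : Set.InjOn (fun p : V × V => s(p.1, p.2)) (orient H o : Set (V × V)) := by
  rintro ⟨a, b⟩ hab ⟨c, d⟩ hcd h
  simp only [orient, Finset.coe_filter, Finset.mem_univ, true_and, Set.mem_setOf_eq] at hab hcd
  rcases Sym2.eq_iff.1 h with ⟨h1, h2⟩ | ⟨h1, h2⟩
  · exact Prod.ext h1 h2
  · subst h1 h2; exact absurd hab.2 (lt_asymm hcd.2)

theorem image_orient (ho : ∀ u v, H.Adj u v → o u ≠ o v) :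
    (orient H o).image (fun p : V × V => s(p.1, p.2)) = H.edgeFinset := by
  ext e
  induction e using Sym2.inductionOn with
  | hf a b =>
    rw [SimpleGraph.mem_edgeFinset, SimpleGraph.mem_edgeSet, Finset.mem_image]
    constructor
    · rintro ⟨⟨c, d⟩, hcd, h⟩
      simp only [orient, Finset.mem_filter, Finset.mem_univ, true_and] at hcd
      rcases Sym2.eq_iff.1 h with ⟨h1, h2⟩ | ⟨h1, h2⟩
      · subst h1 h2; exact hcd.1
      · subst h1 h2; exact hcd.1.symm
    · intro h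
      rcases lt_or_gt_of_ne (ho a b h) with h1 | h1
      · exact ⟨(a, b), by simp [orient, h, h1], rfl⟩
      · exact ⟨(b, a), by simp [orient, h.symm, h1], Sym2.eq_swap⟩

theorem card_orient (ho : ∀ u v, H.Adj u v → o u ≠ o v) :
    (orient H o).card = H.edgeFinset.card := by
  rw [← image_orient H ho, Finset.card_image_of_injOn (orient_injOn H)]

theorem prod_orient (ho : ∀ u v, H.Adj u v → o u ≠ o v) (F : Sym2 V → ℝ) :
    ∏ e ∈ H.edgeFinset, F e = ∏ p ∈ orient H o, F s(p.1, p.2) := by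
  rw [← image_orient H ho, Finset.prod_image (orient_injOn H)]

theorem orient_ne (e : V × V) (he : e ∈ orient H o) : e.1 ≠ e.2 := by
  simp only [orient, Finset.mem_filter, Finset.mem_univ, true_and] at he
  exact he.1.ne

/-- a level function with two levels for bipartite graphs -/
theorem exists_level (hH : H.IsBipartite) :
    ∃ o : V → ℕ, (∀ u v, H.Adj u v → o u ≠ o v) ∧ Oriented (orient H o) := by
  obtain ⟨c⟩ := hH
  refine ⟨fun v => (c v : ℕ), fun u v h h' => c.valid h (Fin.ext h'), ?_⟩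
  intro e he e' he' h
  simp only [orient, Finset.mem_filter, Finset.mem_univ, true_and] at he he'
  have h1 : (c e.1 : ℕ) < c e.2 := he.2
  have h2 : (c e'.1 : ℕ) < c e'.2 := he'.2
  rw [h] at h1
  have := (c e.2).isLt
  omega

/-- an injective level function for arbitrary graphs -/
theorem exists_level_all : ∃ o : V → ℕ, ∀ u v, H.Adj u v → o u ≠ o v :=
  ⟨fun v => (Fintype.equivFin V v : ℕ), fun u v h h' =>
    h.ne ((Fintype.equivFin V).injective (Fin.ext h'))⟩

end orientation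

section twosided

variable {A B : Type*} [Fintype A] [Fintype B] {Ω₁ Ω₂ : Type*}
  [MeasurableSpace Ω₁] [MeasurableSpace Ω₂]

/-- The homomorphism density of the bipartite graph with parts `A`, `B` and edge set
`E ⊆ A × B` in the kernel `W` on `Ω₁ × Ω₂`:
`∫ ∏_{ab ∈ E} W(x_a, y_b) dμ^A(x) dν^B(y)`. -/
noncomputable def bipDensity (μ : Measure Ω₁) (ν : Measure Ω₂) (E : Finset (A × B))
    (W : Ω₁ → Ω₂ → ℝ) : ℝ :=
  ∫ x : A → Ω₁, ∫ y : B → Ω₂, ∏ e ∈ E, W (x e.1) (y e.2)
    ∂(Measure.pi fun _ : B => ν) ∂(Measure.pi fun _ : A => μ)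

variable [DecidableEq A] [DecidableEq B]

theorem bip_ineq (μ : Measure Ω₁) (ν : Measure Ω₂) [IsProbabilityMeasure μ]
    [IsProbabilityMeasure ν] {W : Ω₁ → Ω₂ → ℝ} {C : ℝ}
    (hW : Measurable (uncurry W)) (hW0 : ∀ x y, 0 ≤ W x y) (hWC : ∀ x y, W x y ≤ C)
    {r : Ω₁ → ℝ} {s : Ω₂ → ℝ} (hm : OrderedMinors W r s) (E : Finset (A × B)) :
    (∫ x, ∫ y, W x y ∂ν ∂μ) ^ E.card ≤ bipDensity μ ν E W := by
  set W' : Ω₁ × Ω₂ → Ω₁ × Ω₂ → ℝ := fun p q => W p.1 q.2 with hW'
  set ι : A × B → (A ⊕ B) × (A ⊕ B) := fun e => (Sum.inl e.1, Sum.inr e.2) with hι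
  have hιinj : Injective ι := by
    intro e e' h
    simp only [hι, Prod.mk.injEq, Sum.inl.injEq, Sum.inr.injEq] at h
    exact Prod.ext h.1 h.2
  set E' : Finset ((A ⊕ B) × (A ⊕ B)) := E.image ι with hE'
  have hcard : E'.card = E.card := Finset.card_image_of_injective _ hιinj
  have hmeas : Measurable (uncurry W') := by
    have : uncurry W' = uncurry W ∘ fun p : (Ω₁ × Ω₂) × (Ω₁ × Ω₂) => (p.1.1, p.2.2) := rfl
    rw [this]
    exact hW.comp (by fun_prop)
  have hm' : OrderedMinors W' (r ∘ Prod.fst) (s ∘ Prod.snd) := fun x x' y y' hx hy =>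
    hm _ _ _ _ hx hy
  have hmain := kernel_ineq (V := A ⊕ B) (μ.prod ν) hmeas (fun x y => hW0 _ _)
    (fun x y => hWC _ _) hm' E' (by
      intro e he
      obtain ⟨e', _, rfl⟩ := Finset.mem_image.1 he
      simp [hι]) (Or.inl (by
      intro e he e' he'
      obtain ⟨a, _, rfl⟩ := Finset.mem_image.1 he
      obtain ⟨a', _, rfl⟩ := Finset.mem_image.1 he'
      simp [hι]))
  rw [hcard] at hmain
  -- the mean
  have hmean : ∫ x, ∫ y, W' x y ∂(μ.prod ν) ∂(μ.prod ν) = ∫ x, ∫ y, W x y ∂ν ∂μ := by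
    have hsnd : ∀ f : Ω₂ → ℝ, Measurable f → ∫ q : Ω₁ × Ω₂, f q.2 ∂(μ.prod ν) = ∫ y, f y ∂ν := by
      intro f hf
      have h := (measurePreserving_snd (μ := μ) (ν := ν))
      rw [← h.map_eq, integral_map h.measurable.aemeasurable]
      · rw [h.map_eq]
      · rw [h.map_eq]; exact hf.aestronglyMeasurable
    have hfst : ∀ f : Ω₁ → ℝ, Measurable f → ∫ q : Ω₁ × Ω₂, f q.1 ∂(μ.prod ν) = ∫ y, f y ∂μ := by
      intro f hf
      have h := (measurePreserving_fst (μ := μ) (ν := ν))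
      rw [← h.map_eq, integral_map h.measurable.aemeasurable]
      · rw [h.map_eq]
      · rw [h.map_eq]; exact hf.aestronglyMeasurable
    have h1 : ∀ x : Ω₁ × Ω₂, ∫ y, W' x y ∂(μ.prod ν) = ∫ y, W x.1 y ∂ν := fun x =>
      hsnd (fun y => W x.1 y) (hW.comp (measurable_const.prodMk measurable_id))
    simp only [h1]
    refine hfst (fun x => ∫ y, W x y ∂ν) ?_
    exact (hW.stronglyMeasurable.integral_prod_right (ν := ν)).measurable
  rw [hmean] at hmain
  refine hmain.trans (le_of_eq ?_)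
  -- the density
  unfold dens bipDensity
  have hprod : ∀ x : A ⊕ B → Ω₁ × Ω₂, ∏ e ∈ E', W' (x e.1) (x e.2) =
      ∏ e ∈ E, W (x (Sum.inl e.1)).1 (x (Sum.inr e.2)).2 := by
    intro x
    rw [hE', Finset.prod_image (fun a _ b _ h => hιinj h)]
  simp only [hprod]
  have h1 := measurePreserving_sumPiEquivProdPi (X := fun _ : A ⊕ B => Ω₁ × Ω₂)
    (fun _ : A ⊕ B => μ.prod ν)
  have hA : MeasurePreserving (fun (x : A → Ω₁ × Ω₂) (a : A) => (x a).1)
      (Measure.pi fun _ : A => μ.prod ν) (Measure.pi fun _ : A => μ) :=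
    measurePreserving_pi (fun _ : A => μ.prod ν) (fun _ : A => μ)
      (fun _ => measurePreserving_fst)
  have hB : MeasurePreserving (fun (x : B → Ω₁ × Ω₂) (b : B) => (x b).2)
      (Measure.pi fun _ : B => μ.prod ν) (Measure.pi fun _ : B => ν) :=
    measurePreserving_pi (fun _ : B => μ.prod ν) (fun _ : B => ν)
      (fun _ => measurePreserving_snd)
  have h2 := (hA.prod hB).comp h1
  set G : (A → Ω₁) × (B → Ω₂) → ℝ := fun p => ∏ e ∈ E, W (p.1 e.1) (p.2 e.2) with hG
  have hGm : Measurable G := Finset.measurable_prod _ fun e _ => by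
    have : (fun p : (A → Ω₁) × (B → Ω₂) => W (p.1 e.1) (p.2 e.2)) =
      uncurry W ∘ fun p : (A → Ω₁) × (B → Ω₂) => (p.1 e.1, p.2 e.2) := rfl
    rw [this]
    exact hW.comp (by fun_prop)
  have h3 : ∫ x : A ⊕ B → Ω₁ × Ω₂, ∏ e ∈ E, W (x (Sum.inl e.1)).1 (x (Sum.inr e.2)).2
      ∂(Measure.pi fun _ : A ⊕ B => μ.prod ν) =
      ∫ p, G p ∂((Measure.pi fun _ : A => μ).prod (Measure.pi fun _ : B => ν)) := by
    rw [← h2.map_eq, integral_map h2.measurable.aemeasurable hGm.aestronglyMeasurable]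
    rfl
  rw [h3, integral_prod]
  refine integrable_of_bounds hGm (c := C ^ E.card) fun p => ?_
  refine ⟨Finset.prod_nonneg fun _ _ => hW0 _ _, ?_⟩
  exact (Finset.prod_le_prod (fun _ _ => hW0 _ _) fun _ _ => hWC _ _).trans
    (by rw [Finset.prod_const])

end twosided

end Vale.Agent.P050.H392
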