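import Vale.Agent.P050.H392.Tp

/-!
Partition functions of graphs with totally positive edge kernels: lower bound of Bethe type.
-/

namespace Vale.Agent.P050.H392

open Finset Function

variable {V X : Type*} [Fintype V] [DecidableEq V] [LinearOrder X] [Fintype X]

/-- the weighted number of labellings -/
noncomputable def Z (W : X → X → ℝ) (E : Finset (V × V)) (w : V → X → ℝ) : ℝ :=
  ∑ σ : V → X, (∏ v, w v (σ v)) * ∏ e ∈ E, W (σ e.1) (σ e.2)

theorem Z_nonneg {W : X → X → ℝ} (hW0 : ∀ x y, 0 ≤ W x y) (E : Finset (V × V)) {w : V → X → ℝ}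
    (hw : ∀ v x, 0 ≤ w v x) : 0 ≤ Z W E w :=
  Finset.sum_nonneg fun _ _ => mul_nonneg (Finset.prod_nonneg fun _ _ => hw _ _)
    (Finset.prod_nonneg fun _ _ => hW0 _ _)

theorem Z_four {W : X → X → ℝ} (hW : TP W) (hW0 : ∀ x y, 0 ≤ W x y) (E : Finset (V × V))
    {w₁ w₂ w₃ w₄ : V → X → ℝ} (h₁ : ∀ v x, 0 ≤ w₁ v x) (h₂ : ∀ v x, 0 ≤ w₂ v x)
    (h₃ : ∀ v x, 0 ≤ w₃ v x) (h₄ : ∀ v x, 0 ≤ w₄ v x)
    (h : ∀ v a b, w₁ v a * w₂ v b ≤ w₃ v (a ⊓ b) * w₄ v (a ⊔ b)) :
    Z W E w₁ * Z W E w₂ ≤ Z W E w₃ * Z W E w₄ := by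
  have nn : ∀ (w : V → X → ℝ), (∀ v x, 0 ≤ w v x) → ∀ σ : V → X,
      0 ≤ (∏ v, w v (σ v)) * ∏ e ∈ E, W (σ e.1) (σ e.2) := fun w hw σ =>
    mul_nonneg (Finset.prod_nonneg fun _ _ => hw _ _) (Finset.prod_nonneg fun _ _ => hW0 _ _)
  refine four_functions_theorem_univ
    (fun σ : V → X => (∏ v, w₁ v (σ v)) * ∏ e ∈ E, W (σ e.1) (σ e.2))
    (fun σ : V → X => (∏ v, w₂ v (σ v)) * ∏ e ∈ E, W (σ e.1) (σ e.2))
    (fun σ : V → X => (∏ v, w₃ v (σ v)) * ∏ e ∈ E, W (σ e.1) (σ e.2))
    (fun σ : V → X => (∏ v, w₄ v (σ v)) * ∏ e ∈ E, W (σ e.1) (σ e.2))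
    (nn _ h₁) (nn _ h₂) (nn _ h₃) (nn _ h₄) ?_
  intro σ τ
  calc (∏ v, w₁ v (σ v)) * (∏ e ∈ E, W (σ e.1) (σ e.2)) *
        ((∏ v, w₂ v (τ v)) * ∏ e ∈ E, W (τ e.1) (τ e.2))
      = (∏ v, w₁ v (σ v) * w₂ v (τ v)) *
        ∏ e ∈ E, W (σ e.1) (σ e.2) * W (τ e.1) (τ e.2) := by
        rw [Finset.prod_mul_distrib, Finset.prod_mul_distrib]; ring
    _ ≤ (∏ v, w₃ v (σ v ⊓ τ v) * w₄ v (σ v ⊔ τ v)) *
        ∏ e ∈ E, W (σ e.1 ⊓ τ e.1) (σ e.2 ⊓ τ e.2) * W (σ e.1 ⊔ τ e.1) (σ e.2 ⊔ τ e.2) := by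
        refine mul_le_mul
          (Finset.prod_le_prod (fun v _ => mul_nonneg (h₁ _ _) (h₂ _ _)) fun v _ => h v _ _)
          (Finset.prod_le_prod (fun v _ => mul_nonneg (hW0 _ _) (hW0 _ _))
            fun e _ => hW.lsm _ _ _ _)
          (Finset.prod_nonneg fun _ _ => mul_nonneg (hW0 _ _) (hW0 _ _))
          (Finset.prod_nonneg fun _ _ => mul_nonneg (h₃ _ _) (h₄ _ _))
    _ = _ := by
        rw [Finset.prod_mul_distrib, Finset.prod_mul_distrib]
        simp only [Pi.inf_apply, Pi.sup_apply]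
        ring

/-- the weights with the labels of `u` and `v` fixed -/
noncomputable def pin (w : V → X → ℝ) (u v : V) (x y : X) : V → X → ℝ :=
  update (update w u (Pi.single x 1)) v (Pi.single y 1)

theorem pin_nonneg {w : V → X → ℝ} (hw : ∀ v x, 0 ≤ w v x) (u v : V) (x y : X) (a : V) (s : X) :
    0 ≤ pin w u v x y a s := by
  unfold pin
  by_cases ha : a = v
  · subst ha; simp only [update_self, Pi.single_apply]; split_ifs <;> norm_num
  · rw [update_of_ne ha]
    by_cases ha' : a = u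
    · subst ha'; simp only [update_self, Pi.single_apply]; split_ifs <;> norm_num
    · rw [update_of_ne ha']; exact hw a s

/-- kernel between `u` and `v` -/
noncomputable def K (W : X → X → ℝ) (E : Finset (V × V)) (w : V → X → ℝ) (u v : V) (x y : X) : ℝ :=
  Z W E (pin w u v x y)

theorem K_nonneg {W : X → X → ℝ} (hW0 : ∀ x y, 0 ≤ W x y) (E : Finset (V × V)) {w : V → X → ℝ}
    (hw : ∀ v x, 0 ≤ w v x) (u v : V) (x y : X) : 0 ≤ K W E w u v x y :=
  Z_nonneg hW0 E (pin_nonneg hw u v x y)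

theorem K_tp {W : X → X → ℝ} (hW : TP W) (hW0 : ∀ x y, 0 ≤ W x y) (E : Finset (V × V))
    {w : V → X → ℝ} (hw : ∀ v x, 0 ≤ w v x) (u v : V) : TP (K W E w u v) := by
  intro x x' y y' hx hy
  refine Z_four hW hW0 E (pin_nonneg hw u v x y') (pin_nonneg hw u v x' y)
    (pin_nonneg hw u v x y) (pin_nonneg hw u v x' y') ?_
  intro a s t
  have hnn : 0 ≤ pin w u v x y a (s ⊓ t) * pin w u v x' y' a (s ⊔ t) :=
    mul_nonneg (pin_nonneg hw _ _ _ _ _ _) (pin_nonneg hw _ _ _ _ _ _)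
  unfold pin at hnn ⊢
  by_cases ha : a = v
  · subst ha
    simp only [update_self] at hnn ⊢
    by_cases hs : s = y'
    · by_cases ht : t = y
      · subst hs ht
        simp [hy]
      · simpa [Pi.single_apply, ht] using hnn
    · simpa [Pi.single_apply, hs] using hnn
  · simp only [update_of_ne ha] at hnn ⊢
    by_cases ha' : a = u
    · subst ha'
      simp only [update_self] at hnn ⊢
      by_cases hs : s = x
      · by_cases ht : t = x'
        · subst hs ht
          simp [hx]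
        · simpa [Pi.single_apply, ht] using hnn
      · simpa [Pi.single_apply, hs] using hnn
    · simp only [update_of_ne ha']
      rcases le_total s t with hst | hst
      · simp [hst]
      · simp [hst, mul_comm]

theorem sum_decomp (w : V → X → ℝ) {u v : V} (huv : u ≠ v) (F : X → X → ℝ)
    (P : (V → X) → ℝ) :
    ∑ σ : V → X, (∏ a, w a (σ a)) * F (σ u) (σ v) * P σ =
      ∑ x, ∑ y, F x y * w u x * w v y * ∑ σ : V → X, (∏ a, pin w u v x y a (σ a)) * P σ := by
  have hR : ∀ f : V → ℝ, ∏ a, f a = f u * (f v * ∏ a ∈ (univ.erase u).erase v, f a) := by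
    intro f
    rw [← Finset.mul_prod_erase univ f (Finset.mem_univ u),
      ← Finset.mul_prod_erase (univ.erase u) f (Finset.mem_erase.2 ⟨huv.symm, Finset.mem_univ v⟩)]
  simp only [Finset.mul_sum]
  have h1 : ∀ x y : X, ∀ σ : V → X, (∏ a, pin w u v x y a (σ a)) =
      (if σ u = x then 1 else 0) * ((if σ v = y then 1 else 0) *
        ∏ a ∈ (univ.erase u).erase v, w a (σ a)) := by
    intro x y σ
    rw [hR]
    congr 1
    · simp [pin, update_of_ne huv, Pi.single_apply]
    · congr 1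
      · simp [pin, Pi.single_apply]
      · refine Finset.prod_congr rfl fun a ha => ?_
        have ha1 : a ≠ v := (Finset.mem_erase.1 ha).1
        have ha2 : a ≠ u := (Finset.mem_erase.1 (Finset.mem_erase.1 ha).2).1
        simp [pin, update_of_ne ha1, update_of_ne ha2]
  symm
  calc ∑ x, ∑ y, ∑ σ : V → X, F x y * w u x * w v y * ((∏ a, pin w u v x y a (σ a)) * P σ)
      = ∑ x, ∑ σ : V → X, ∑ y, F x y * w u x * w v y * ((∏ a, pin w u v x y a (σ a)) * P σ) :=
        Finset.sum_congr rfl fun x _ => Finset.sum_comm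
    _ = ∑ σ : V → X, ∑ x, ∑ y, F x y * w u x * w v y *
          ((∏ a, pin w u v x y a (σ a)) * P σ) := Finset.sum_comm
    _ = _ := by
        refine Finset.sum_congr rfl fun σ _ => ?_
        simp only [h1]
        rw [hR (fun a => w a (σ a))]
        rw [Finset.sum_eq_single (σ u)]
        · rw [Finset.sum_eq_single (σ v)]
          · simp; ring
          · intro y _ hy
            rw [if_neg (Ne.symm hy)]; ring
          · simp
        · intro x _ hx
          refine Finset.sum_eq_zero fun y _ => ?_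
          rw [if_neg (Ne.symm hx)]; ring
        · simp

theorem Z_insert {W : X → X → ℝ} {E : Finset (V × V)} {w : V → X → ℝ} {u v : V} (huv : u ≠ v)
    (he : (u, v) ∉ E) :
    Z W (insert (u, v) E) w = ∑ x, ∑ y, W x y * w u x * w v y * K W E w u v x y := by
  have := sum_decomp w huv W (fun σ => ∏ e ∈ E, W (σ e.1) (σ e.2))
  unfold K Z
  rw [← this]
  refine Finset.sum_congr rfl fun σ _ => ?_
  rw [Finset.prod_insert he]; ring

theorem pin_update (w : V → X → ℝ) {u v : V} (f g : X → ℝ) (x y : X) :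
    pin (update (update w u f) v g) u v x y = pin w u v x y := by
  funext a
  unfold pin
  by_cases ha : a = v
  · subst ha; simp
  · simp only [update_of_ne ha]
    by_cases ha' : a = u
    · subst ha'; simp
    · simp [update_of_ne ha', update_of_ne ha]

theorem Z_update {W : X → X → ℝ} {E : Finset (V × V)} {w : V → X → ℝ} {u v : V} (huv : u ≠ v)
    (f g : X → ℝ) :
    Z W E (update (update w u f) v g) = ∑ x, ∑ y, f x * g y * K W E w u v x y := by
  have := sum_decomp (update (update w u f) v g) huv (fun _ _ => 1)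
    (fun σ => ∏ e ∈ E, W (σ e.1) (σ e.2))
  simp only [mul_one, one_mul, pin_update, update_self, update_of_ne huv] at this
  unfold K Z
  rw [← this]

end Vale.Agent.P050.H392
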