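import Vale.Agent.P050.H392.Sort

/-!
Nonnegative kernels of rank at most two can be ordered.
-/

namespace Vale.Agent.P050.H392

/-- `W` has rank at most two -/
def RankLeTwo {Ω₁ Ω₂ : Type*} (W : Ω₁ → Ω₂ → ℝ) : Prop :=
  ∃ (f₁ f₂ : Ω₁ → ℝ) (g₁ g₂ : Ω₂ → ℝ), ∀ x y, W x y = f₁ x * g₁ y + f₂ x * g₂ y

/-- the key computation -/
theorem minor_sign {Ω : Type*} {D : Ω → Ω → ℝ} {u v : Ω → ℝ} {c : ℝ}
    (hu : ∀ x, 0 ≤ u x) (hv : ∀ x, 0 ≤ v x) (h : ∀ x x', D x x' * c = u x * v x' - v x * u x')
    {x x' : Ω} (hr : v x / (u x + v x) ≤ v x' / (u x' + v x')) : 0 ≤ D x x' * c := by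
  rw [h]
  rcases (add_nonneg (hu x) (hv x)).eq_or_lt with h0 | h0
  · have h1 : u x = 0 := by linarith [hu x, hv x]
    have h2 : v x = 0 := by linarith [hu x, hv x]
    rw [h1, h2]; simp
  · rcases (add_nonneg (hu x') (hv x')).eq_or_lt with h0' | h0'
    · have h1 : u x' = 0 := by linarith [hu x', hv x']
      have h2 : v x' = 0 := by linarith [hu x', hv x']
      rw [h1, h2]; simp
    · rw [div_le_div_iff₀ h0 h0'] at hr
      nlinarith

theorem RankLeTwo.ordered {Ω₁ Ω₂ : Type*} {W : Ω₁ → Ω₂ → ℝ} (h : RankLeTwo W)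
    (hW : ∀ x y, 0 ≤ W x y) : ∃ r s, OrderedMinors W r s := by
  by_cases hmin : ∀ x x' y y', W x y' * W x' y = W x y * W x' y'
  · exact ⟨fun _ => 0, fun _ => 0, fun x x' y y' _ _ => (hmin x x' y y').le⟩
  · push Not at hmin
    obtain ⟨f₁, f₂, g₁, g₂, hfg⟩ := h
    -- a pair of rows and columns with positive minor
    obtain ⟨a, a', b, b', hpos⟩ : ∃ a a' b b', 0 < W a b * W a' b' - W a b' * W a' b := by
      obtain ⟨a, a', b, b', hab⟩ := hmin
      rcases lt_or_gt_of_ne hab with h1 | h1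
      · exact ⟨a, a', b, b', by linarith⟩
      · exact ⟨a, a', b', b, by linarith⟩
    set D₁ : Ω₁ → Ω₁ → ℝ := fun x x' => f₁ x * f₂ x' - f₂ x * f₁ x' with hD₁
    set D₂ : Ω₂ → Ω₂ → ℝ := fun y y' => g₁ y * g₂ y' - g₂ y * g₁ y' with hD₂
    have hminor : ∀ x x' y y', W x y * W x' y' - W x y' * W x' y = D₁ x x' * D₂ y y' := by
      intro x x' y y'
      simp only [hfg, hD₁, hD₂]; ring
    refine ⟨fun x => W x b' / (W x b + W x b'), fun y => W a' y / (W a y + W a' y), ?_⟩
    intro x x' y y' hr hs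
    have h1 : 0 ≤ D₁ x x' * D₂ b b' :=
      minor_sign (D := D₁) (u := fun x => W x b) (v := fun x => W x b') (fun x => hW x b)
        (fun x => hW x b') (fun x x' => by rw [← hminor]) hr
    have h2 : 0 ≤ D₂ y y' * D₁ a a' :=
      minor_sign (D := D₂) (u := fun y => W a y) (v := fun y => W a' y) (fun y => hW a y)
        (fun y => hW a' y) (fun y y' => by
          have := hminor a a' y y'
          linarith [mul_comm (D₁ a a') (D₂ y y'), mul_comm (W a' y) (W a y')]) hs
    have h3 : 0 < D₁ a a' * D₂ b b' := by rw [← hminor]; exact hpos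
    have h4 : 0 ≤ (D₁ x x' * D₂ y y') * (D₁ a a' * D₂ b b') := by
      have := mul_nonneg h1 h2
      nlinarith
    have h5 : 0 ≤ D₁ x x' * D₂ y y' := by
      by_contra hneg
      push Not at hneg
      have := mul_neg_of_neg_of_pos hneg h3
      linarith
    have h6 := hminor x x' y y'
    linarith

/-- positive semidefinite of rank at most two -/
theorem psd_ordered {Ω : Type*} {W : Ω → Ω → ℝ} (hW : ∀ x y, 0 ≤ W x y) {f g : Ω → ℝ}
    (h : ∀ x y, W x y = f x * f y + g x * g y) : ∃ r, OrderedMinors W r r := by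
  set D : Ω → Ω → ℝ := fun x x' => f x * g x' - g x * f x' with hD
  have hminor : ∀ x x' y y', W x y * W x' y' - W x y' * W x' y = D x x' * D y y' := by
    intro x x' y y'
    simp only [h, hD]; ring
  by_cases hmin : ∀ b b', D b b' = 0
  · refine ⟨fun _ => 0, fun x x' y y' _ _ => ?_⟩
    have := hminor x x' y y'
    rw [hmin x x', zero_mul] at this
    linarith
  · push Not at hmin
    obtain ⟨b, b', hb⟩ := hmin
    refine ⟨fun x => W x b' / (W x b + W x b'), ?_⟩
    intro x x' y y' hr hs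
    have h1 : 0 ≤ D x x' * D b b' :=
      minor_sign (D := D) (u := fun x => W x b) (v := fun x => W x b') (fun x => hW x b)
        (fun x => hW x b') (fun x x' => by rw [← hminor]) hr
    have h2 : 0 ≤ D y y' * D b b' :=
      minor_sign (D := D) (u := fun x => W x b) (v := fun x => W x b') (fun x => hW x b)
        (fun x => hW x b') (fun x x' => by rw [← hminor]) hs
    have h3 : 0 < D b b' * D b b' := mul_self_pos.2 hb
    have h4 : 0 ≤ (D x x' * D y y') * (D b b' * D b b') := by
      have := mul_nonneg h1 h2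
      nlinarith
    have h5 : 0 ≤ D x x' * D y y' := by
      by_contra hneg
      push Not at hneg
      have := mul_neg_of_neg_of_pos hneg h3
      linarith
    have h6 := hminor x x' y y'
    linarith

end Vale.Agent.P050.H392
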