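import Vale.Agent.P050.H392.Uniform

/-!
Finite samples of kernels whose rows and columns can be ordered with nonnegative two-minors.
-/

namespace Vale.Agent.P050.H392

open Finset Function

variable {V : Type*} [Fintype V] [DecidableEq V]

/-- With rows ordered by `r` and columns ordered by `s`, all `2 × 2` minors of `W` are
nonnegative. -/
def OrderedMinors {Ω₁ Ω₂ : Type*} (W : Ω₁ → Ω₂ → ℝ) (r : Ω₁ → ℝ) (s : Ω₂ → ℝ) : Prop :=
  ∀ x x' y y', r x ≤ r x' → s y ≤ s y' → W x y' * W x' y ≤ W x y * W x' y'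

theorem sample_ineq {Ω : Type*} {W : Ω → Ω → ℝ} (hW0 : ∀ x y, 0 ≤ W x y) {r s : Ω → ℝ}
    (hm : OrderedMinors W r s) (E : Finset (V × V)) (hE : ∀ e ∈ E, e.1 ≠ e.2)
    (h : Oriented E ∨ (r = s ∧ ∀ x y, W x y = W y x)) {N : ℕ} (hN : 0 < N) (z : Fin N → Ω) :
    ((∑ i, ∑ j, W (z i) (z j)) / (N : ℝ) ^ 2) ^ E.card ≤
      (∑ φ : V → Fin N, ∏ e ∈ E, W (z (φ e.1)) (z (φ e.2))) / (N : ℝ) ^ Fintype.card V := by
  classical
  set σ : Equiv.Perm (Fin N) := Tuple.sort (r ∘ z) with hσ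
  set τ : Equiv.Perm (Fin N) := Tuple.sort (s ∘ z) with hτ
  have hσm : Monotone ((r ∘ z) ∘ σ) := Tuple.monotone_sort _
  have hτm : Monotone ((s ∘ z) ∘ τ) := Tuple.monotone_sort _
  set W' : Fin N → Fin N → ℝ := fun i j => W (z (σ i)) (z (τ j)) with hW'
  have hTP : TP W' := by
    intro i i' j j' hi hj
    exact hm _ _ _ _ (hσm hi) (hτm hj)
  have hor : Oriented E ∨ ∀ x y, W' x y = W' y x := by
    refine h.imp id fun h' => ?_
    intro x y
    have : σ = τ := by rw [hσ, hτ, h'.1]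
    simp only [hW', this]
    exact h'.2 _ _
  have hmain := uniform_fin hN hTP (fun x y => hW0 _ _) E hE hor
  have htot : tot W' = ∑ i, ∑ j, W (z i) (z j) := by
    unfold tot
    simp only [hW']
    rw [← Equiv.sum_comp σ (fun i => ∑ j, W (z i) (z j))]
    exact Finset.sum_congr rfl fun i _ => Equiv.sum_comp τ (fun j => W (z (σ i)) (z j))
  -- relabelling
  set ψ : ∀ _ : V, Fin N ≃ Fin N := fun v => if ∃ e ∈ E, e.1 = v then σ else τ with hψ
  have hZ : Z W' E (fun _ _ => 1 / (N : ℝ)) =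
      (∑ φ : V → Fin N, ∏ e ∈ E, W (z (φ e.1)) (z (φ e.2))) / (N : ℝ) ^ Fintype.card V := by
    unfold Z
    rw [← Equiv.sum_comp (Equiv.piCongrRight ψ)
      (fun φ : V → Fin N => ∏ e ∈ E, W (z (φ e.1)) (z (φ e.2))), Finset.sum_div]
    refine Finset.sum_congr rfl fun φ _ => ?_
    rw [Finset.prod_const, Finset.card_univ, one_div, inv_pow, ← div_eq_inv_mul]
    congr 1
    refine Finset.prod_congr rfl fun e he => ?_
    have h1 : ψ e.1 = σ := by simp only [hψ]; rw [if_pos ⟨e, he, rfl⟩]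
    have h2 : ψ e.2 = τ := by
      simp only [hψ]
      by_cases h3 : ∃ e' ∈ E, e'.1 = e.2
      · rw [if_pos h3]
        obtain ⟨e', he', h4⟩ := h3
        rcases h with h | h
        · exact absurd h4 (h e' he' e he)
        · rw [hσ, hτ, h.1]
      · rw [if_neg h3]
    simp only [hW', Equiv.piCongrRight_apply, Pi.map_apply, h1, h2]
  rw [htot, hZ] at hmain
  exact hmain

end Vale.Agent.P050.H392
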