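import Mathlib

/-!
Totally positive kernels of order two on finite chains: two-minors, traces, powers.
-/

namespace Vale.Agent.P050.H392

open Finset

/-- all `2 × 2` minors of `A` are nonnegative -/
def TP {X Y : Type*} [LE X] [LE Y] (A : X → Y → ℝ) : Prop :=
  ∀ x x' y y', x ≤ x' → y ≤ y' → A x y' * A x' y ≤ A x y * A x' y'

theorem TP.lsm {X Y : Type*} [LinearOrder X] [LinearOrder Y] {A : X → Y → ℝ} (h : TP A)
    (x x' : X) (y y' : Y) :
    A x y * A x' y' ≤ A (x ⊓ x') (y ⊓ y') * A (x ⊔ x') (y ⊔ y') := by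
  rcases le_total x x' with hx | hx <;> rcases le_total y y' with hy | hy
  · simp [hx, hy]
  · simp only [hx, hy, inf_of_le_left, inf_of_le_right, sup_of_le_left, sup_of_le_right]
    exact h x x' y' y hx hy
  · simp only [hx, hy, inf_of_le_left, inf_of_le_right, sup_of_le_left, sup_of_le_right]
    rw [mul_comm (A x y), mul_comm (A x' y)]
    have := h x' x y y' hx hy
    linarith [this, mul_comm (A x' y) (A x y')]
  · simp only [hx, hy, inf_of_le_right, sup_of_le_left]
    rw [mul_comm]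

theorem TP.comp {X Y Z : Type*} [LinearOrder X] [LinearOrder Y] [Fintype Y] [LinearOrder Z]
    {A : X → Y → ℝ} {B : Y → Z → ℝ} (hA : TP A) (hB : TP B) (hA0 : ∀ x y, 0 ≤ A x y)
    (hB0 : ∀ x y, 0 ≤ B x y) : TP (fun x z => ∑ y, A x y * B y z) := by
  intro x x' z z' hx hz
  refine four_functions_theorem_univ (fun y => A x y * B y z') (fun y => A x' y * B y z)
    (fun y => A x y * B y z) (fun y => A x' y * B y z')
    (fun y => mul_nonneg (hA0 _ _) (hB0 _ _)) (fun y => mul_nonneg (hA0 _ _) (hB0 _ _))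
    (fun y => mul_nonneg (hA0 _ _) (hB0 _ _)) (fun y => mul_nonneg (hA0 _ _) (hB0 _ _)) ?_
  intro a b
  have h1 := hA.lsm x x' a b
  have h2 := hB.lsm a b z' z
  simp only [hx, hz, inf_of_le_left, inf_of_le_right, sup_of_le_left, sup_of_le_right] at h1 h2
  calc A x a * B a z' * (A x' b * B b z) = (A x a * A x' b) * (B a z' * B b z) := by ring
    _ ≤ (A x (a ⊓ b) * A x' (a ⊔ b)) * (B (a ⊓ b) z * B (a ⊔ b) z') :=
        mul_le_mul h1 h2 (mul_nonneg (hB0 _ _) (hB0 _ _)) (mul_nonneg (hA0 _ _) (hA0 _ _))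
    _ = _ := by ring

section square

variable {X : Type*} [LinearOrder X] [Fintype X]

/-- iterated squares of a kernel -/
def sq (A : X → X → ℝ) : ℕ → X → X → ℝ
  | 0 => A
  | n + 1 => fun x z => ∑ y, sq A n x y * sq A n y z

theorem sq_nonneg {A : X → X → ℝ} (hA : ∀ x y, 0 ≤ A x y) (n : ℕ) (x y : X) :
    0 ≤ sq A n x y := by
  induction n generalizing x y with
  | zero => exact hA x y
  | succ n ih => exact Finset.sum_nonneg fun z _ => mul_nonneg (ih _ _) (ih _ _)

theorem sq_tp {A : X → X → ℝ} (h : TP A) (hA : ∀ x y, 0 ≤ A x y) (n : ℕ) : TP (sq A n) := by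
  induction n with
  | zero => exact h
  | succ n ih => exact ih.comp ih (sq_nonneg hA n) (sq_nonneg hA n)

theorem trace_sq_le {A : X → X → ℝ} (h : TP A) :
    ∑ x, ∑ y, A x y * A y x ≤ (∑ x, A x x) ^ 2 := by
  rw [pow_two, Finset.sum_mul_sum]
  refine Finset.sum_le_sum fun x _ => Finset.sum_le_sum fun y _ => ?_
  rcases le_total x y with hxy | hxy
  · exact h x y x y hxy hxy
  · have := h y x y x hxy hxy
    linarith [mul_comm (A x y) (A y x), mul_comm (A x x) (A y y)]

theorem trace_pow_le {A : X → X → ℝ} (h : TP A) (hA : ∀ x y, 0 ≤ A x y) (n : ℕ) :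
    ∑ x, sq A n x x ≤ (∑ x, A x x) ^ (2 ^ n) := by
  induction n with
  | zero => simp [sq]
  | succ n ih =>
    have h1 : ∑ x, sq A (n + 1) x x ≤ (∑ x, sq A n x x) ^ 2 := trace_sq_le (sq_tp h hA n)
    refine h1.trans ?_
    rw [pow_succ 2 n, pow_mul]
    exact pow_le_pow_left₀ (Finset.sum_nonneg fun x _ => sq_nonneg hA n x x) ih 2

/-- if averaging the logarithm against `π` gains at least `c` under `A`, then the trace of `A` is
at least `exp c` -/
theorem gain_sq {A : X → X → ℝ} (hA : ∀ x y, 0 < A x y) {π : X → ℝ} [Nonempty X] {c : ℝ}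
    (h : ∀ g : X → ℝ, (∀ x, 0 < g x) →
      c + ∑ x, π x * Real.log (g x) ≤ ∑ x, π x * Real.log (∑ y, A x y * g y)) (n : ℕ) :
    (∀ x y, 0 < sq A n x y) ∧ ∀ g : X → ℝ, (∀ x, 0 < g x) →
      2 ^ n * c + ∑ x, π x * Real.log (g x) ≤ ∑ x, π x * Real.log (∑ y, sq A n x y * g y) := by
  induction n with
  | zero => exact ⟨hA, fun g hg => by simpa [sq] using h g hg⟩
  | succ n ih =>
    obtain ⟨ihp, ih⟩ := ih
    refine ⟨fun x y => Finset.sum_pos (fun z _ => mul_pos (ihp _ _) (ihp _ _))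
      Finset.univ_nonempty, fun g hg => ?_⟩
    have h1 := ih g hg
    have hg' : ∀ x, 0 < ∑ y, sq A n x y * g y := fun x =>
      Finset.sum_pos (fun z _ => mul_pos (ihp _ _) (hg _)) Finset.univ_nonempty
    have h2 := ih _ hg'
    have h3 : ∀ x, ∑ y, sq A (n + 1) x y * g y = ∑ y, sq A n x y * ∑ z, sq A n y z * g z := by
      intro x
      simp only [sq, Finset.sum_mul, Finset.mul_sum]
      rw [Finset.sum_comm]
      exact Finset.sum_congr rfl fun z _ => Finset.sum_congr rfl fun y _ => by ring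
    simp only [h3]
    have h4 : (2 : ℝ) ^ (n + 1) * c = 2 ^ n * c + 2 ^ n * c := by ring
    linarith

theorem comparable_sq {A : X → X → ℝ} (hA : ∀ x y, 0 ≤ A x y) {δ : ℝ}
    (h : ∀ x y y', δ * A x y' ≤ A x y) (n : ℕ) (x y y' : X) :
    δ * sq A n x y' ≤ sq A n x y := by
  induction n generalizing x y y' with
  | zero => exact h x y y'
  | succ n ih =>
    simp only [sq, Finset.mul_sum]
    refine Finset.sum_le_sum fun z _ => ?_
    have := mul_le_mul_of_nonneg_left (ih z y y') (sq_nonneg hA n x z)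
    linarith [mul_left_comm δ (sq A n x z) (sq A n z y')]

theorem le_log_trace {A : X → X → ℝ} (hTP : TP A) (hA : ∀ x y, 0 < A x y) {π : X → ℝ}
    (hπ : ∀ x, 0 ≤ π x) (hπ1 : ∑ x, π x = 1) {c : ℝ}
    (h : ∀ g : X → ℝ, (∀ x, 0 < g x) →
      c + ∑ x, π x * Real.log (g x) ≤ ∑ x, π x * Real.log (∑ y, A x y * g y)) :
    c ≤ Real.log (∑ x, A x x) := by
  have hne : Nonempty X := by
    by_contra hX
    rw [not_nonempty_iff] at hX
    simp at hπ1
  -- comparability constant
  obtain ⟨δ, hδ0, hδ⟩ : ∃ δ : ℝ, 0 < δ ∧ ∀ x y y', δ * A x y' ≤ A x y := by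
    obtain ⟨m, hm⟩ := Finite.exists_min (fun q : X × X => A q.1 q.2)
    obtain ⟨M, hM⟩ := Finite.exists_max (fun q : X × X => A q.1 q.2)
    refine ⟨A m.1 m.2 / A M.1 M.2, div_pos (hA _ _) (hA _ _), fun x y y' => ?_⟩
    have h1 : A x y' ≤ A M.1 M.2 := hM (x, y')
    have h2 : A m.1 m.2 ≤ A x y := hm (x, y)
    calc A m.1 m.2 / A M.1 M.2 * A x y' ≤ A m.1 m.2 / A M.1 M.2 * A M.1 M.2 :=
          mul_le_mul_of_nonneg_left h1 (div_pos (hA _ _) (hA _ _)).le
      _ = A m.1 m.2 := div_mul_cancel₀ _ (hA _ _).ne'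
      _ ≤ A x y := h2
  have hA0 : ∀ x y, 0 ≤ A x y := fun x y => (hA x y).le
  have htr : 0 < ∑ x, A x x := Finset.sum_pos (fun x _ => hA x x) Finset.univ_nonempty
  set C : ℝ := Real.log (Fintype.card X / δ) with hC
  have hcard : (0 : ℝ) < Fintype.card X := by exact_mod_cast Fintype.card_pos
  have key : ∀ n : ℕ, 2 ^ n * c ≤ C + 2 ^ n * Real.log (∑ x, A x x) := by
    intro n
    obtain ⟨hp, hg⟩ := gain_sq hA h n
    have h1 := hg (fun _ => 1) (fun _ => one_pos)
    simp only [Real.log_one, mul_zero, Finset.sum_const_zero, add_zero, mul_one] at h1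
    have htrn : 0 < ∑ x, sq A n x x := Finset.sum_pos (fun x _ => hp x x) Finset.univ_nonempty
    have h2 : ∀ x, Real.log (∑ y, sq A n x y) ≤ C + 2 ^ n * Real.log (∑ x, A x x) := by
      intro x
      have h3 : ∑ y, sq A n x y ≤ Fintype.card X / δ * ∑ x, sq A n x x := by
        have h4 : ∀ y, sq A n x y ≤ (1 / δ) * ∑ x, sq A n x x := by
          intro y
          have h5 := comparable_sq hA0 hδ n x x y
          have h6 : sq A n x x ≤ ∑ x, sq A n x x :=
            Finset.single_le_sum (f := fun x => sq A n x x) (fun x _ => (hp x x).le)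
              (Finset.mem_univ x)
          rw [one_div, ← div_eq_inv_mul, le_div_iff₀ hδ0]
          linarith
        calc ∑ y, sq A n x y ≤ ∑ _y : X, (1 / δ) * ∑ x, sq A n x x :=
              Finset.sum_le_sum fun y _ => h4 y
          _ = _ := by
              rw [Finset.sum_const, Finset.card_univ, nsmul_eq_mul]; ring
      calc Real.log (∑ y, sq A n x y) ≤ Real.log (Fintype.card X / δ * ∑ x, sq A n x x) :=
            Real.log_le_log (Finset.sum_pos (fun y _ => hp x y) Finset.univ_nonempty) h3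
        _ = C + Real.log (∑ x, sq A n x x) :=
            Real.log_mul (div_pos hcard hδ0).ne' htrn.ne'
        _ ≤ C + Real.log ((∑ x, A x x) ^ (2 ^ n)) := by
            gcongr
            exact trace_pow_le hTP hA0 n
        _ = _ := by rw [Real.log_pow]; push_cast; ring
    calc 2 ^ n * c ≤ ∑ x, π x * Real.log (∑ y, sq A n x y) := h1
      _ ≤ ∑ x, π x * (C + 2 ^ n * Real.log (∑ x, A x x)) :=
          Finset.sum_le_sum fun x _ => mul_le_mul_of_nonneg_left (h2 x) (hπ x)
      _ = _ := by rw [← Finset.sum_mul, hπ1, one_mul]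
  by_contra hcon
  push Not at hcon
  obtain ⟨n, hn⟩ := exists_nat_gt (C / (c - Real.log (∑ x, A x x)))
  have hd : 0 < c - Real.log (∑ x, A x x) := by linarith
  rw [div_lt_iff₀ hd] at hn
  have h2n : (n : ℝ) ≤ 2 ^ n := by exact_mod_cast (Nat.lt_two_pow_self).le
  have := key n
  nlinarith [mul_le_mul_of_nonneg_right h2n hd.le]

end square

end Vale.Agent.P050.H392
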