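import Vale.Agent.P050.H392.Bethe

/-!
The Sidorenko inequality for totally positive kernels on a finite chain with uniform weights.
-/

namespace Vale.Agent.P050.H392

open Finset Function

variable {V X : Type*} [Fintype V] [DecidableEq V] [LinearOrder X] [Fintype X]

/-- no vertex is the tail of one edge and the head of another one -/
def Oriented (E : Finset (V × V)) : Prop := ∀ e ∈ E, ∀ e' ∈ E, e.1 ≠ e'.2

open Classical in
/-- the vertex marginals -/
noncomputable def marg (W : X → X → ℝ) (E : Finset (V × V)) (v : V) : X → ℝ :=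
  if ∃ e ∈ E, e.1 = v then row W else if ∃ e ∈ E, e.2 = v then col W else
    fun _ => 1 / (Fintype.card X : ℝ)

/-- relative entropy with respect to the uniform law -/
noncomputable def ent (π : X → ℝ) : ℝ := Real.log (Fintype.card X) + ∑ x, π x * Real.log (π x)

theorem ent_nonneg [Nonempty X] {π : X → ℝ} (hπ : ∀ x, 0 < π x) (hπ1 : ∑ x, π x = 1) :
    0 ≤ ent π := by
  have hk : (0 : ℝ) < Fintype.card X := by exact_mod_cast Fintype.card_pos
  have h := gibbs hπ hπ1 (w := fun _ => 1 / (Fintype.card X : ℝ)) (fun _ => by positivity)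
  have h1 : ∑ _x : X, 1 / (Fintype.card X : ℝ) = 1 := by
    rw [Finset.sum_const, Finset.card_univ, nsmul_eq_mul]; field_simp
  rw [h1, Real.log_one] at h
  have h2 : ∑ x, π x * (Real.log (1 / (Fintype.card X : ℝ)) - Real.log (π x)) = - ent π := by
    unfold ent
    simp only [mul_sub, Finset.sum_sub_distrib]
    rw [← Finset.sum_mul, hπ1, one_div, Real.log_inv]
    ring
  rw [h2] at h
  linarith

theorem uniform_pos {W : X → X → ℝ} [Nonempty X] (hTP : TP W) (hpos : ∀ x y, 0 < W x y)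
    (E : Finset (V × V)) (hE : ∀ e ∈ E, e.1 ≠ e.2)
    (h : Oriented E ∨ ∀ x y, W x y = W y x) :
    (tot W / (Fintype.card X : ℝ) ^ 2) ^ E.card ≤ Z W E (fun _ _ => 1 / (Fintype.card X : ℝ)) := by
  classical
  have hk : (0 : ℝ) < Fintype.card X := by exact_mod_cast Fintype.card_pos
  set π : V → X → ℝ := marg W E with hπdef
  have hsumu : ∑ _x : X, 1 / (Fintype.card X : ℝ) = 1 := by
    rw [Finset.sum_const, Finset.card_univ, nsmul_eq_mul]; field_simp
  have hπ : ∀ v x, 0 < π v x := by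
    intro v x
    simp only [hπdef, marg]
    split_ifs
    · exact row_pos hpos x
    · exact col_pos hpos x
    · positivity
  have hπ1 : ∀ v, ∑ x, π v x = 1 := by
    intro v
    simp only [hπdef, marg]
    split_ifs
    · exact row_sum hpos
    · exact col_sum hpos
    · exact hsumu
  have hπE : ∀ e ∈ E, e.1 ≠ e.2 ∧ π e.1 = row W ∧ π e.2 = col W := by
    intro e he
    refine ⟨hE e he, ?_, ?_⟩
    · simp only [hπdef, marg]
      rw [if_pos ⟨e, he, rfl⟩]
    · simp only [hπdef, marg]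
      by_cases h1 : ∃ e' ∈ E, e'.1 = e.2
      · rw [if_pos h1]
        obtain ⟨e', he', h2⟩ := h1
        rcases h with h | h
        · exact absurd h2 (h e' he' e he)
        · funext x
          unfold row col
          rw [Finset.sum_congr rfl fun y _ => h x y]
      · rw [if_neg h1, if_pos ⟨e, he, rfl⟩]
  have hb := bethe hTP hpos hπ hπ1 E hπE (fun _ _ => 1 / (Fintype.card X : ℝ))
    (fun _ _ => by positivity)
  have h1 : ∑ v, ∑ x, π v x * (Real.log (1 / (Fintype.card X : ℝ)) - Real.log (π v x)) =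
      - ∑ v, ent (π v) := by
    rw [← Finset.sum_neg_distrib]
    refine Finset.sum_congr rfl fun v _ => ?_
    unfold ent
    simp only [mul_sub, Finset.sum_sub_distrib]
    rw [← Finset.sum_mul, hπ1, one_div, Real.log_inv]
    ring
  rw [h1] at hb
  have h2 : Real.log (tot W) + ∑ x, row W x * Real.log (row W x) +
      ∑ y, col W y * Real.log (col W y) =
      Real.log (tot W / (Fintype.card X : ℝ) ^ 2) + ent (row W) + ent (col W) := by
    unfold ent
    rw [Real.log_div (tot_pos hpos).ne' (by positivity), Real.log_pow]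
    push_cast; ring
  rw [h2] at hb
  have h3 : ∑ v, ent (π v) ≤ (E.card : ℝ) * (ent (row W) + ent (col W)) := by
    have h4 : (E.card : ℝ) * (ent (row W) + ent (col W)) =
        ∑ e ∈ E, (ent (π e.1) + ent (π e.2)) := by
      rw [Finset.sum_congr rfl fun e he => by rw [(hπE e he).2.1, (hπE e he).2.2]]
      rw [Finset.sum_const, nsmul_eq_mul]
    have h5 : ∀ e : V × V, ent (π e.1) + ent (π e.2) =
        ∑ v, ((if v = e.1 then ent (π v) else 0) + (if v = e.2 then ent (π v) else 0)) := by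
      intro e
      rw [Finset.sum_add_distrib]
      simp
    rw [h4, Finset.sum_congr rfl fun e _ => h5 e, Finset.sum_comm]
    refine Finset.sum_le_sum fun v _ => ?_
    have hent : 0 ≤ ent (π v) := ent_nonneg (hπ v) (hπ1 v)
    have hnn : ∀ e ∈ E, 0 ≤ (if v = e.1 then ent (π v) else 0) +
        (if v = e.2 then ent (π v) else 0) := by
      intro e _
      split_ifs <;> linarith
    by_cases hv1 : ∃ e ∈ E, e.1 = v
    · obtain ⟨e, he, hev⟩ := hv1
      refine le_trans ?_ (Finset.single_le_sum hnn he)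
      rw [if_pos hev.symm]
      split_ifs <;> linarith
    · by_cases hv2 : ∃ e ∈ E, e.2 = v
      · obtain ⟨e, he, hev⟩ := hv2
        refine le_trans ?_ (Finset.single_le_sum hnn he)
        rw [if_pos hev.symm]
        split_ifs <;> linarith
      · have h6 : ent (π v) = 0 := by
          simp only [hπdef, marg]
          rw [if_neg hv1, if_neg hv2]
          unfold ent
          rw [← Finset.sum_mul, hsumu, one_div, Real.log_inv]
          ring
        rw [h6]
        exact Finset.sum_nonneg fun e _ => by simp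
  have hp : 0 < tot W / (Fintype.card X : ℝ) ^ 2 := div_pos (tot_pos hpos) (by positivity)
  have hZ : 0 < Z W E (fun _ _ => 1 / (Fintype.card X : ℝ)) := by
    unfold Z
    exact Finset.sum_pos (fun σ _ => mul_pos (Finset.prod_pos fun _ _ => by positivity)
      (Finset.prod_pos fun _ _ => hpos _ _)) univ_nonempty
  rw [← Real.log_le_log_iff (pow_pos hp _) hZ, Real.log_pow]
  have h7 : (E.card : ℝ) * (Real.log (tot W / (Fintype.card X : ℝ) ^ 2) + ent (row W) +
      ent (col W)) = E.card * Real.log (tot W / (Fintype.card X : ℝ) ^ 2) +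
      E.card * (ent (row W) + ent (col W)) := by ring
  rw [h7] at hb
  linarith

/-! ### smoothing -/

/-- a totally positive approximation of the identity -/
def P {k : ℕ} (ε : ℝ) (x a : Fin k) : ℝ := ε ^ (((x : ℤ) - (a : ℤ)).natAbs ^ 2)

theorem P_pos {k : ℕ} {ε : ℝ} (h : 0 < ε) (x a : Fin k) : 0 < P ε x a := pow_pos h _

theorem P_symm {k : ℕ} (ε : ℝ) (x a : Fin k) : P ε x a = P ε a x := by
  unfold P
  congr 2
  rw [← Int.natAbs_neg]; congr 1; ring

theorem P_zero {k : ℕ} (x a : Fin k) : P 0 x a = if x = a then 1 else 0 := by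
  unfold P
  by_cases h : x = a
  · subst h; simp
  · rw [if_neg h, zero_pow]
    have : (x : ℤ) - (a : ℤ) ≠ 0 := by
      intro h'
      exact h (Fin.ext (by omega))
    exact pow_ne_zero _ (Int.natAbs_ne_zero.2 this)

theorem P_tp {k : ℕ} {ε : ℝ} (h0 : 0 ≤ ε) (h1 : ε ≤ 1) : TP (P (k := k) ε) := by
  intro x x' a a' hx ha
  unfold P
  rw [← pow_add, ← pow_add]
  refine pow_le_pow_of_le_one h0 h1 ?_
  have hx' : (x : ℤ) ≤ (x' : ℤ) := by exact_mod_cast hx
  have ha' : (a : ℤ) ≤ (a' : ℤ) := by exact_mod_cast ha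
  have hz : ∀ z : ℤ, ((z.natAbs ^ 2 : ℕ) : ℤ) = z ^ 2 := fun z => by
    push_cast; rw [sq_abs]
  have : (((((x : ℤ) - (a : ℤ)).natAbs ^ 2 + ((x' : ℤ) - (a' : ℤ)).natAbs ^ 2 : ℕ)) : ℤ) ≤
      ((((x : ℤ) - (a' : ℤ)).natAbs ^ 2 + ((x' : ℤ) - (a : ℤ)).natAbs ^ 2 : ℕ)) := by
    rw [Nat.cast_add, Nat.cast_add, hz, hz, hz, hz]
    nlinarith [mul_nonneg (sub_nonneg.2 hx') (sub_nonneg.2 ha')]
  exact_mod_cast this

/-- smoothed kernel -/
def smooth {k : ℕ} (W : Fin k → Fin k → ℝ) (ε : ℝ) (x y : Fin k) : ℝ :=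
  ∑ b, (∑ a, P ε x a * W a b) * P ε b y

theorem smooth_zero {k : ℕ} (W : Fin k → Fin k → ℝ) : smooth W 0 = W := by
  funext x y
  simp [smooth, P_zero]

theorem smooth_continuous {k : ℕ} (W : Fin k → Fin k → ℝ) (x y : Fin k) :
    Continuous fun ε => smooth W ε x y := by
  unfold smooth P
  fun_prop

theorem smooth_tp {k : ℕ} {W : Fin k → Fin k → ℝ} (hTP : TP W) (hW : ∀ x y, 0 ≤ W x y) {ε : ℝ}
    (h0 : 0 < ε) (h1 : ε ≤ 1) : TP (smooth W ε) :=
  ((P_tp h0.le h1).comp hTP (fun _ _ => (P_pos h0 _ _).le) hW).comp (P_tp h0.le h1)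
    (fun _ _ => Finset.sum_nonneg fun _ _ => mul_nonneg (P_pos h0 _ _).le (hW _ _))
    (fun _ _ => (P_pos h0 _ _).le)

theorem smooth_pos {k : ℕ} {W : Fin k → Fin k → ℝ} (hW : ∀ x y, 0 ≤ W x y)
    (hne : ∃ a b, W a b ≠ 0) {ε : ℝ} (h0 : 0 < ε) (x y : Fin k) : 0 < smooth W ε x y := by
  obtain ⟨a, b, hab⟩ := hne
  unfold smooth
  refine Finset.sum_pos' (fun b _ => mul_nonneg (Finset.sum_nonneg fun _ _ =>
    mul_nonneg (P_pos h0 _ _).le (hW _ _)) (P_pos h0 _ _).le) ⟨b, Finset.mem_univ _, ?_⟩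
  refine mul_pos (Finset.sum_pos' (fun _ _ => mul_nonneg (P_pos h0 _ _).le (hW _ _))
    ⟨a, Finset.mem_univ _, mul_pos (P_pos h0 _ _) ?_⟩) (P_pos h0 _ _)
  exact lt_of_le_of_ne (hW a b) (Ne.symm hab)

theorem smooth_symm {k : ℕ} {W : Fin k → Fin k → ℝ} (hW : ∀ x y, W x y = W y x) (ε : ℝ)
    (x y : Fin k) : smooth W ε x y = smooth W ε y x := by
  unfold smooth
  simp only [Finset.sum_mul]
  rw [Finset.sum_comm]
  refine Finset.sum_congr rfl fun a _ => Finset.sum_congr rfl fun b _ => ?_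
  rw [P_symm ε x a, P_symm ε b y, hW a b]; ring

theorem Z_continuous {k : ℕ} (W : Fin k → Fin k → ℝ) (E : Finset (V × V)) (w : V → Fin k → ℝ) :
    Continuous fun ε => Z (smooth W ε) E w := by
  unfold Z
  refine continuous_finset_sum _ fun σ _ => continuous_const.mul
    (continuous_finset_prod _ fun e _ => smooth_continuous W _ _)

theorem tot_continuous {k : ℕ} (W : Fin k → Fin k → ℝ) :
    Continuous fun ε => tot (smooth W ε) := by
  unfold tot
  exact continuous_finset_sum _ fun x _ => continuous_finset_sum _ fun y _ =>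
    smooth_continuous W x y

theorem uniform_fin {k : ℕ} (hk : 0 < k) {W : Fin k → Fin k → ℝ} (hTP : TP W)
    (hW : ∀ x y, 0 ≤ W x y) (E : Finset (V × V)) (hE : ∀ e ∈ E, e.1 ≠ e.2)
    (h : Oriented E ∨ ∀ x y, W x y = W y x) :
    (tot W / (k : ℝ) ^ 2) ^ E.card ≤ Z W E (fun _ _ => 1 / (k : ℝ)) := by
  have : NeZero k := ⟨hk.ne'⟩
  by_cases hne : ∃ a b, W a b ≠ 0
  · have hle : ∀ ε : ℝ, 0 < ε → ε ≤ 1 →
        (tot (smooth W ε) / (k : ℝ) ^ 2) ^ E.card ≤ Z (smooth W ε) E (fun _ _ => 1 / (k : ℝ)) := by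
      intro ε h0 h1
      have := uniform_pos (smooth_tp hTP hW h0 h1) (smooth_pos hW hne h0) E hE
        (h.imp id fun h' x y => smooth_symm h' ε x y)
      simpa using this
    have hc1 : Filter.Tendsto (fun ε : ℝ => (tot (smooth W ε) / (k : ℝ) ^ 2) ^ E.card)
        (nhdsWithin 0 (Set.Ioi 0)) (nhds ((tot (smooth W 0) / (k : ℝ) ^ 2) ^ E.card)) :=
      (((tot_continuous W).div_const _).pow _).continuousAt.tendsto.mono_left nhdsWithin_le_nhds
    have hc2 : Filter.Tendsto (fun ε : ℝ => Z (smooth W ε) E (fun _ _ => 1 / (k : ℝ)))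
        (nhdsWithin 0 (Set.Ioi 0)) (nhds (Z (smooth W 0) E (fun _ _ => 1 / (k : ℝ)))) :=
      (Z_continuous W E _).continuousAt.tendsto.mono_left nhdsWithin_le_nhds
    rw [smooth_zero] at hc1 hc2
    refine le_of_tendsto_of_tendsto hc1 hc2 ?_
    have hmem : Set.Ioc (0 : ℝ) 1 ∈ nhdsWithin (0 : ℝ) (Set.Ioi 0) :=
      Ioc_mem_nhdsGT one_pos
    exact Filter.mem_of_superset hmem fun ε hε => hle ε hε.1 hε.2
  · push Not at hne
    have h0 : tot W = 0 := by
      unfold tot
      exact Finset.sum_eq_zero fun x _ => Finset.sum_eq_zero fun y _ => hne x y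
    rw [h0, zero_div]
    rcases E.eq_empty_or_nonempty with rfl | hEne
    · simp only [Finset.card_empty, pow_zero]
      unfold Z
      simp only [Finset.prod_empty, mul_one, Finset.prod_const, Finset.sum_const,
        Finset.card_univ, nsmul_eq_mul, Fintype.card_fun, Fintype.card_fin]
      push_cast
      rw [← mul_pow, mul_one_div_cancel (by positivity : (k : ℝ) ≠ 0), one_pow]
    · rw [zero_pow (Finset.card_ne_zero.2 hEne)]
      exact Z_nonneg hW E fun _ _ => by positivity

end Vale.Agent.P050.H392
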